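import Crest.Agent.R12.QB.Cv

/-!
Row 12, block QB: the four-variable form; trivial bound, linearity, regrouping.
-/

set_option autoImplicit false

namespace Crest.Agent.R12.QB

open Crest.Agent.R17
open scoped ComplexConjugate

/-- the form of `StBb` with general variables -/
noncomputable def Q4 (a Y A : ℝ) (α c f g : O → ℂ) : ℂ :=
  ∑ x ∈ ball (2 * A), ∑ n₀ ∈ pball Y, ∑ n₂ ∈ pball Y, ∑ n₃ ∈ pball Y,
    α x * c n₀ * f n₂ * g n₃ * f0 (x * n₀ * n₂ * n₃) * (LW a Y (nm (x * n₀ * n₂ * n₃)) : ℂ)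

theorem cuta_sum {S : Finset O} {N M : ℝ} {F : O → ℂ} (hN : (S.card : ℝ) ≤ N) (hM : 0 ≤ M)
    (h : ∀ n ∈ S, ‖F n‖ ≤ M) : ‖∑ n ∈ S, F n‖ ≤ N * M := by
  refine (norm_sum_le _ _).trans ((Finset.sum_le_card_nsmul _ _ _ h).trans ?_)
  rw [nsmul_eq_mul]
  gcongr

/-- every term is at most `C (2Y) · C Y · s₂ s₃ · 3 · s` (`dn_pow_le k` with `ε = 1`, `norm_f0_le`; `x = 0` gives `f0 0 = 0`);
`card_ball_le` (`ball (2A) ⊆ ball (2Y)`, `pball Y ⊆ ball Y`). -/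
theorem Q4_triv (k : ℕ) : ∃ C : ℝ, 0 < C ∧ ∀ (a Y A s s₂ s₃ : ℝ) (α c f g : O → ℂ), 1 ≤ Y → A ≤ Y → 0 ≤ s →
    0 ≤ s₂ → 0 ≤ s₃ → Dv k α → Dv k c → (∀ n, Prim n → ‖f n‖ ≤ s₂) → (∀ n, Prim n → ‖g n‖ ≤ s₃) →
    (∀ x n₀ n₂ n₃, α x ≠ 0 → c n₀ ≠ 0 → f n₂ ≠ 0 → g n₃ ≠ 0 → LW a Y (nm (x * n₀ * n₂ * n₃)) ≤ s) →
    ‖Q4 a Y A α c f g‖ ≤ C * Y ^ 6 * (s * s₂ * s₃) := by
  obtain ⟨C, hC, hd⟩ := dn_pow_le k (ε := 1) one_pos
  refine ⟨22 * 11 ^ 3 * 6 * C ^ 2, by positivity,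
    fun a Y A s s₂ s₃ α c f g hY hA hs hs₂ hs₃ dα dc hf hg hw => ?_⟩
  have hY0 : 0 < Y := by linarith
  have c₁ : ((ball (2 * A)).card : ℝ) ≤ 11 * (2 * Y) := by
    refine le_trans ?_ (card_ball_le (X := 2 * Y) (by linarith))
    exact_mod_cast Finset.card_le_card fun x hx => mem_ball.2 ((mem_ball.1 hx).trans (by linarith))
  have c₂ : ((pball Y).card : ℝ) ≤ 11 * Y :=
    card_le_of_nm_le hY0.le fun n hn => ⟨(mem_pball.1 hn).2.ne_zero, (mem_pball.1 hn).1⟩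
  have hdv : ∀ {β : O → ℂ} {n : O} {Z : ℝ}, Dv k β → n ≠ 0 → nm n ≤ Z → ‖β n‖ ≤ C * Z :=
    fun {β n Z} h hn hZ => by
      have := hd n hn
      rw [Real.rpow_one] at this
      exact (h n).trans (this.trans (by gcongr))
  unfold Q4
  refine le_trans (cuta_sum c₁ (M := 11 * Y * (11 * Y * (11 * Y *
    (C * (2 * Y) * (C * Y) * s₂ * s₃ * 3 * s)))) (by positivity) fun x hx =>
    cuta_sum c₂ (by positivity) fun n₀ h₀ => cuta_sum c₂ (by positivity) fun n₂ h₂ =>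
    cuta_sum c₂ (by positivity) fun n₃ h₃ => ?_) (le_of_eq (by ring))
  have h0 : 0 ≤ C * (2 * Y) * (C * Y) * s₂ * s₃ * 3 * s := by positivity
  by_cases z₀ : x = 0
  · have : f0 (x * n₀ * n₂ * n₃) = 0 := f0_eq_zero fun h => h.ne_zero (by simp [z₀])
    simpa [this] using h0
  by_cases z₁ : α x = 0
  · simpa [z₁] using h0
  by_cases z₂ : c n₀ = 0
  · simpa [z₂] using h0
  by_cases z₃ : f n₂ = 0
  · simpa [z₃] using h0
  by_cases z₄ : g n₃ = 0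
  · simpa [z₄] using h0
  have b₁ := hdv dα z₀ (show nm x ≤ 2 * Y from (mem_ball.1 hx).trans (by linarith))
  have b₂ := hdv dc (mem_pball.1 h₀).2.ne_zero (mem_pball.1 h₀).1
  have b₃ := hf n₂ (mem_pball.1 h₂).2
  have b₄ := hg n₃ (mem_pball.1 h₃).2
  have b₅ := norm_f0_le (x * n₀ * n₂ * n₃)
  have b₆ := hw x n₀ n₂ n₃ z₁ z₂ z₃ z₄
  have b₇ := (LW_pos a Y (nm (x * n₀ * n₂ * n₃))).le
  rw [norm_mul, norm_mul, norm_mul, norm_mul, norm_mul, Complex.norm_real, Real.norm_of_nonneg b₇]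
  gcongr

theorem Q4_sub_f (a Y A : ℝ) (α c f f' g : O → ℂ) :
    Q4 a Y A α c (fun n => f n - f' n) g = Q4 a Y A α c f g - Q4 a Y A α c f' g := by
  unfold Q4
  simp only [← Finset.sum_sub_distrib]
  refine Finset.sum_congr rfl fun _ _ => Finset.sum_congr rfl fun _ _ =>
    Finset.sum_congr rfl fun _ _ => Finset.sum_congr rfl fun _ _ => ?_
  ring

theorem Q4_sub_g (a Y A : ℝ) (α c f g g' : O → ℂ) :
    Q4 a Y A α c f (fun n => g n - g' n) = Q4 a Y A α c f g - Q4 a Y A α c f g' := by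
  unfold Q4
  simp only [← Finset.sum_sub_distrib]
  refine Finset.sum_congr rfl fun _ _ => Finset.sum_congr rfl fun _ _ =>
    Finset.sum_congr rfl fun _ _ => Finset.sum_congr rfl fun _ _ => ?_
  ring

/-- cutting both plain variables: `Q4_sub_f`, `Q4_sub_g`, `Q4_triv` (`s = 1`, `LW_le_one`), `pl_sub_plc` (`J = 6`) -/
theorem Q4_cut (k : ℕ) {ε : ℝ} (hε : 0 < ε) : ∃ C : ℝ, 0 < C ∧ ∀ (l : ℤ) (a Y A M₂ t₂ M₃ t₃ R : ℝ) (α c : O → ℂ),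
    1 ≤ Y → A ≤ Y → 0 < M₂ → 0 < M₃ → Y ^ ε ≤ R → Dv k α → Dv k c →
    ‖Q4 a Y A α c (pl l M₂ t₂) (pl l M₃ t₃) - Q4 a Y A α c (plc l M₂ t₂ R) (plc l M₃ t₃ R)‖ ≤ C ∧
    ‖Q4 a Y A α c (plc l M₂ t₂ R) (pl l M₃ t₃) - Q4 a Y A α c (plc l M₂ t₂ R) (plc l M₃ t₃ R)‖ ≤ C := by
  obtain ⟨C, hC, ht⟩ := Q4_triv k
  obtain ⟨D, hD, hp⟩ := pl_sub_plc 6 hε
  refine ⟨2 * (C * D), by positivity, fun l a Y A M₂ t₂ M₃ t₃ R α c hY hA h2 h3 hR dα dc => ?_⟩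
  have hY0 : 0 < Y := by linarith
  have e : Y ^ 6 * Y ^ (-(6 : ℝ)) = 1 := by
    rw [Real.rpow_neg hY0.le, show (6 : ℝ) = (6 : ℕ) by norm_num, Real.rpow_natCast]
    exact mul_inv_cancel₀ (by positivity)
  have hs : 0 ≤ D * Y ^ (-(6 : ℝ)) := by positivity
  have q₁ : ‖Q4 a Y A α c (pl l M₂ t₂) (pl l M₃ t₃) - Q4 a Y A α c (plc l M₂ t₂ R) (pl l M₃ t₃)‖ ≤
      C * D := by
    rw [← Q4_sub_f]
    refine (ht a Y A 1 (D * Y ^ (-(6 : ℝ))) 1 α c _ _ hY hA zero_le_one hs zero_le_one dα dc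
      (fun n hn => hp l Y M₂ t₂ R n hY h2 hR hn.ne_zero) (fun n _ => norm_pl_le l M₃ t₃ n)
      fun _ _ _ _ _ _ _ _ => LW_le_one _ _ _).trans (le_of_eq ?_)
    linear_combination C * D * e
  have q₂ : ‖Q4 a Y A α c (plc l M₂ t₂ R) (pl l M₃ t₃) -
      Q4 a Y A α c (plc l M₂ t₂ R) (plc l M₃ t₃ R)‖ ≤ C * D := by
    rw [← Q4_sub_g]
    refine (ht a Y A 1 1 (D * Y ^ (-(6 : ℝ))) α c _ _ hY hA zero_le_one zero_le_one hs dα dc
      (fun n _ => norm_plc_le l M₂ t₂ R n) (fun n hn => hp l Y M₃ t₃ R n hY h3 hR hn.ne_zero)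
      fun _ _ _ _ _ _ _ _ => LW_le_one _ _ _).trans (le_of_eq ?_)
    linear_combination C * D * e
  have hCD : 0 < C * D := by positivity
  refine ⟨(norm_sub_le_norm_sub_add_norm_sub _ (Q4 a Y A α c (plc l M₂ t₂ R) (pl l M₃ t₃)) _).trans ?_, ?_⟩
  · linarith
  · linarith

/-- far from `A N₀ M₂ M₃ = Y`: on the support `T / R² < N (x n₀ n₂ n₃) ≤ 4 T R²`, `T = A N₀ M₂ M₃` (`plc_ne_zero`);
`LW_small` (`J = 6`, `Z = Y`), `Q4_triv` -/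
theorem Q4_far (k : ℕ) {ε : ℝ} (hε : 0 < ε) : ∃ C : ℝ, 0 < C ∧
    ∀ (l : ℤ) (a Y A N₀ M₂ t₂ M₃ t₃ R : ℝ) (α c : O → ℂ), 0 < a → a ≤ 1 → 1 ≤ Y → 0 < A → A ≤ Y → 0 < N₀ →
    0 < M₂ → 0 < M₃ → 0 < R → Supp α A (2 * A) → Dv k α → Dv k c →
    (∀ n, c n ≠ 0 → N₀ < nm n ∧ nm n ≤ 2 * N₀) →
    (4 * (A * (N₀ * M₂ * M₃)) * R ^ 2 ≤ Y * Y ^ (-ε) ∨ Y * Y ^ ε ≤ A * (N₀ * M₂ * M₃) / R ^ 2) →
    ‖Q4 a Y A α c (plc l M₂ t₂ R) (plc l M₃ t₃ R)‖ ≤ C := by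
  obtain ⟨C, hC, ht⟩ := Q4_triv k
  obtain ⟨D, hD, hp⟩ := LW_small 6 ε hε
  refine ⟨C * D, by positivity,
    fun l a Y A N₀ M₂ t₂ M₃ t₃ R α c ha ha1 hY hA hAY hN h2 h3 hR sα dα dc sc hf => ?_⟩
  have hY0 : 0 < Y := by linarith
  have e : Y ^ 6 * Y ^ (-(6 : ℝ)) = 1 := by
    rw [Real.rpow_neg hY0.le, show (6 : ℝ) = (6 : ℕ) by norm_num, Real.rpow_natCast]
    exact mul_inv_cancel₀ (by positivity)
  refine (ht a Y A (D * Y ^ (-(6 : ℝ))) 1 1 α c _ _ hY hAY (by positivity) zero_le_one zero_le_one dα dc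
    (fun n _ => norm_plc_le l M₂ t₂ R n) (fun n _ => norm_plc_le l M₃ t₃ R n)
    fun x n₀ n₂ n₃ z₁ z₂ z₃ z₄ => ?_).trans (le_of_eq (by linear_combination C * D * e))
  obtain ⟨-, a₁, a₂⟩ := sα x z₁
  obtain ⟨b₁, b₂⟩ := sc n₀ z₂
  obtain ⟨c₁, c₂⟩ := plc_ne_zero z₃
  obtain ⟨d₁, d₂⟩ := plc_ne_zero z₄
  have p₁ : 0 < nm x := hA.trans a₁
  have p₂ : 0 < nm n₀ := hN.trans b₁
  have p₃ : 0 < nm n₂ := lt_trans (by positivity) c₁
  have p₄ : 0 < nm n₃ := lt_trans (by positivity) d₁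
  rw [nm_mul, nm_mul, nm_mul]
  refine hp a Y Y _ ha (by linarith) hY hY0 (by positivity) (hf.imp (fun h => le_trans ?_ h)
    fun h => h.trans ?_)
  · calc nm x * nm n₀ * nm n₂ * nm n₃ ≤ 2 * A * (2 * N₀) * (M₂ * R) * (M₃ * R) := by gcongr
      _ = _ := by ring
  · calc A * (N₀ * M₂ * M₃) / R ^ 2 = A * N₀ * (M₂ / R) * (M₃ / R) := by field_simp
      _ ≤ _ := by gcongr

/-- `sum_gq` with `Z = Y`, `F b = α x · f0 (x b) · LW`; for `α x ≠ 0` (`x` primary) `f0 (x b) = 0` unless `PSq b`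
(`f0_eq_zero`, `PSq.of_mul_left`) -/
theorem Q4_eq_Bil (l : ℤ) {Y A N₀ M₂ M₃ R X : ℝ} (a t₂ t₃ : ℝ) {α c : O → ℂ} (hα : Supp α A (2 * A))
    (hN : 1 / 2 ≤ N₀) (h2 : 0 < M₂) (h3 : 0 < M₃) (hR : 0 < R) (hX : 2 * N₀ * M₂ * M₃ * R ^ 2 ≤ X)
    (hY : X ≤ Y) (hc : ∀ n, c n ≠ 0 → nm n ≤ 2 * N₀) :
    Q4 a Y A α c (plc l M₂ t₂ R) (plc l M₃ t₃ R) = Bil a Y α (gq l c M₂ t₂ M₃ t₃ R) (2 * A) X := by
  classical
  unfold Q4 Bil
  refine Finset.sum_congr rfl fun x _ => ?_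
  by_cases hx : α x = 0
  · simp [hx]
  have hp := (hα x hx).1.1
  have h := sum_gq l t₂ t₃ hN h2 h3 hR hX hY hc
    (fun b => α x * f0 (x * b) * (LW a Y (nm (x * b)) : ℂ))
  rw [Finset.sum_congr rfl fun b _ => show α x * gq l c M₂ t₂ M₃ t₃ R b * f0 (x * b) *
    (LW a Y (nm (x * b)) : ℂ) = gq l c M₂ t₂ M₃ t₃ R b *
      (α x * f0 (x * b) * (LW a Y (nm (x * b)) : ℂ)) by ring, h]
  refine Finset.sum_congr rfl fun n₀ _ => Finset.sum_congr rfl fun n₂ _ =>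
    Finset.sum_congr rfl fun n₃ _ => ?_
  have e : x * n₀ * n₂ * n₃ = x * (n₀ * n₂ * n₃) := by ring
  rw [e]
  split_ifs with hq
  · ring
  · rw [f0_eq_zero fun h' => hq (PSq.of_mul_left hp h')]
    ring

theorem Bil_gd (l : ℤ) (a Y XA X M₂ t₂ M₃ t₃ M₂' M₃' R : ℝ) (α c : O → ℂ) :
    Bil a Y α (gd l c M₂ t₂ M₃ t₃ M₂' M₃' R) XA X =
      Bil a Y α (gq l c M₂ t₂ M₃ t₃ R) XA X - Bil a Y α (gq l c M₂' t₂ M₃' t₃ R) XA X := by
  unfold Bil gd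
  rw [← Finset.sum_sub_distrib]
  refine Finset.sum_congr rfl fun x _ => ?_
  rw [← Finset.sum_sub_distrib]
  exact Finset.sum_congr rfl fun b _ => by ring

/-- `sum_cv` with `X = Z = Y` -/
theorem Q4_eq_cv (a Y A : ℝ) (α c f g : O → ℂ)
    (h : ∀ n m, Prim n → Prim m → c n ≠ 0 → f m ≠ 0 → nm n * nm m ≤ Y) :
    Q4 a Y A α c f g = ∑ x ∈ ball (2 * A), ∑ n₀ ∈ pball Y, ∑ n ∈ pball Y,
      α x * cv c f n₀ * g n * f0 (x * n₀ * n) * (LW a Y (nm (x * n₀ * n)) : ℂ) := by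
  unfold Q4
  refine Finset.sum_congr rfl fun x _ => ?_
  have h1 := sum_cv c f (fun b => ∑ n ∈ pball Y,
    α x * g n * f0 (x * b * n) * (LW a Y (nm (x * b * n)) : ℂ)) le_rfl h
  simp only [Finset.mul_sum] at h1
  refine Eq.trans ?_ (h1.symm.trans ?_)
  · refine Finset.sum_congr rfl fun n₀ _ => Finset.sum_congr rfl fun n₂ _ =>
      Finset.sum_congr rfl fun n₃ _ => ?_
    rw [← mul_assoc x n₀ n₂]
    ring
  · exact Finset.sum_congr rfl fun n₀ _ => Finset.sum_congr rfl fun n₂ _ => by ring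

/-- dyadic pieces of `c`: `c = c₀ + ∑_{i < N} dy i c` on `pball Y`, `c₀ n = if 1/2 < N n ∧ N n ≤ 2 (1/2) then c n else 0`
(`sum_dy`, `exists_dy_range`, `norm_dy_le`); `N + 1 ≤ 3 log Y + 1` -/
theorem Q4_dy {k : ℕ} {a Y A D : ℝ} {α c f g : O → ℂ} (hY : 2 ≤ Y) (hD : 0 ≤ D) (hc : Dv k c)
    (h : ∀ (N₀ : ℝ) (c' : O → ℂ), 1 / 2 ≤ N₀ → Dv k c' → (∀ n, c' n ≠ 0 → N₀ < nm n ∧ nm n ≤ 2 * N₀) →
      ‖Q4 a Y A α c' f g‖ ≤ D) : ‖Q4 a Y A α c f g‖ ≤ 3 * (1 + Real.log Y) * D := by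
  classical
  obtain ⟨N, hN1, hN2⟩ := exists_dy_range hY
  set c₀ : O → ℂ := fun n => if 1 / 2 < nm n ∧ nm n ≤ 2 * (1 / 2) then c n else 0 with hc₀
  have hsplit : ∀ n ∈ pball Y, c n = c₀ n + ∑ i ∈ Finset.range N, dy i c n := fun n hn => by
    obtain ⟨h1, h2⟩ := mem_pball.1 hn
    have h3 := one_le_nm h2.ne_zero
    by_cases h4 : 1 < nm n
    · rw [sum_dy c h4 (h1.trans hN1), hc₀]
      simp only
      rw [if_neg (fun h => by linarith [h.2]), zero_add]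
    · rw [Finset.sum_eq_zero fun i _ => ?_, add_zero, hc₀]
      · simp only
        rw [if_pos ⟨by linarith, by linarith⟩]
      · unfold dy
        rw [if_neg fun h => h4 (lt_of_le_of_lt (one_le_pow₀ one_le_two) h.1)]
  have e : Q4 a Y A α c f g = Q4 a Y A α c₀ f g + ∑ i ∈ Finset.range N, Q4 a Y A α (dy i c) f g := by
    unfold Q4
    rw [Finset.sum_comm (s := Finset.range N), ← Finset.sum_add_distrib]
    refine Finset.sum_congr rfl fun x _ => ?_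
    rw [Finset.sum_comm (s := Finset.range N), ← Finset.sum_add_distrib]
    refine Finset.sum_congr rfl fun n₀ hn₀ => ?_
    rw [Finset.sum_comm (s := Finset.range N), ← Finset.sum_add_distrib]
    refine Finset.sum_congr rfl fun n₂ _ => ?_
    rw [Finset.sum_comm (s := Finset.range N), ← Finset.sum_add_distrib]
    refine Finset.sum_congr rfl fun n₃ _ => ?_
    rw [hsplit n₀ hn₀]
    simp only [mul_add, add_mul, Finset.mul_sum, Finset.sum_mul]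
  have h0 : ‖Q4 a Y A α c₀ f g‖ ≤ D := by
    refine h (1 / 2) c₀ le_rfl (fun b => le_trans ?_ (hc b)) fun n hn => ?_
    · simp only [hc₀]
      split_ifs
      · exact le_rfl
      · simp
    · by_contra h'
      exact hn (if_neg h')
  have hi : ∀ i ∈ Finset.range N, ‖Q4 a Y A α (dy i c) f g‖ ≤ D := fun i _ => by
    refine h (2 ^ i) _ (le_trans (by norm_num) (one_le_pow₀ one_le_two))
      (fun b => (norm_dy_le i c b).trans (hc b)) fun n hn => ?_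
    by_contra h'
    exact hn (if_neg h')
  rw [e]
  refine (norm_add_le _ _).trans ?_
  have h1 := (norm_sum_le _ _).trans (Finset.sum_le_card_nsmul _ _ _ hi)
  rw [Finset.card_range, nsmul_eq_mul] at h1
  have h2 := mul_le_mul_of_nonneg_right hN2 hD
  nlinarith

end Crest.Agent.R12.QB
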