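import Crest.Agent.R12.QR.All

/-!
Row 12, block QB, dual rows (owner helper72): the theorem `stQR`.
-/

set_option autoImplicit false

namespace Crest.Agent.R12

open Crest.Agent.R17
open scoped ComplexConjugate

theorem stQR (h4 : StAllG) (h5 : StMom) (h6 : StPV) : StQR := by
  intro j
  obtain ⟨E, hE⟩ := rows_RB h4 h5 h6 j
  refine ⟨E, 1 / 1000000, 1 / 10000, by norm_num, by norm_num, fun ε k hε => ?_⟩
  obtain ⟨C, hC, hRB⟩ := hE ε k hε
  obtain ⟨Co, hCo, hO⟩ := OD_le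
  refine ⟨Co * (C * (8 * Real.exp 9) ^ 2 * 2 ^ E), E, ?_⟩
  intro Y R A' B X N₀ M₂ M₃ t₂ t₃ c hY hR hA1 hA2 hB hX hN h₂ h₃ hP hBN hNX hc hs
  have hY1 : 1 ≤ Y := by linarith
  have hY0 : 0 < Y := by linarith
  have hR1 : 1 ≤ R := (Real.one_le_rpow hY1 hε.le).trans hR
  have hR2 : 1 ≤ R ^ 2 := one_le_pow₀ hR1
  have hB0 : 0 < B := lt_of_lt_of_le (by positivity) hB
  have hA0 : 0 < A' := lt_of_lt_of_le (by positivity) hA1
  have hN0 : 0 < N₀ := by linarith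
  have hP0 : 0 < N₀ * M₂ * M₃ := by positivity
  have hB' : B ≤ N₀ * M₂ * M₃ := hBN.trans (div_le_self hP0.le hR2)
  have hX' : N₀ * M₂ * M₃ ≤ X := by nlinarith
  have hBX : B ≤ X := hB'.trans hX'
  have hXY : X ≤ Y := by
    refine hX.trans ?_
    calc Y ^ (1 / 2 + 1 / 1000000 : ℝ) ≤ Y ^ (1 : ℝ) := Real.rpow_le_rpow_of_exponent_le hY1 (by norm_num)
      _ = Y := Real.rpow_one Y
  have hX2 : X ≤ Y ^ (50001 / 100000 : ℝ) := hX.trans (Real.rpow_le_rpow_of_exponent_le hY1 (by norm_num))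
  set K := B ^ 2 / (1 ^ 2 * A') with hKdef
  have hK0 : 0 < K := by positivity
  have hK : K ≤ Y ^ (32001 / 100000 : ℝ) := by
    rw [hKdef, one_pow, one_mul, div_le_iff₀ hA0]
    calc B ^ 2 ≤ (Y ^ (1 / 2 + 1 / 1000000 : ℝ)) ^ 2 := pow_le_pow_left₀ hB0.le (hBX.trans hX) 2
      _ = Y ^ (1 + 2 / 1000000 : ℝ) := by
        rw [← Real.rpow_natCast _ 2, ← Real.rpow_mul hY0.le]; norm_num
      _ ≤ Y ^ (32001 / 100000 + (68 / 100 - 1 / 1000000) : ℝ) :=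
        Real.rpow_le_rpow_of_exponent_le hY1 (by norm_num)
      _ = Y ^ (32001 / 100000 : ℝ) * Y ^ (68 / 100 - 1 / 1000000 : ℝ) := Real.rpow_add hY0 _ _
      _ ≤ _ := mul_le_mul_of_nonneg_left hA1 (by positivity)
  have hXB : ((X / B) ^ 3) ^ 2 ≤ Y ^ (12 / 1000000 : ℝ) := by
    have h1 : X / B ≤ Y ^ (2 / 1000000 : ℝ) := by
      rw [div_le_iff₀ hB0]
      calc X ≤ Y ^ (1 / 2 + 1 / 1000000 : ℝ) := hX
        _ = Y ^ (2 / 1000000 : ℝ) * Y ^ (1 / 2 - 1 / 1000000 : ℝ) := by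
          rw [← Real.rpow_add hY0]; norm_num
        _ ≤ _ := mul_le_mul_of_nonneg_left hB (by positivity)
    have h0 : 0 ≤ X / B := div_nonneg (hB0.le.trans hBX) hB0.le
    calc ((X / B) ^ 3) ^ 2 = (X / B) ^ 6 := by ring
      _ ≤ (Y ^ (2 / 1000000 : ℝ)) ^ 6 := pow_le_pow_left₀ h0 h1 6
      _ = _ := by rw [← Real.rpow_natCast _ 6, ← Real.rpow_mul hY0.le]; norm_num
  set ω := 1 + |t₂| + |t₃| with hω
  have hω1 : 1 ≤ ω := by have := abs_nonneg t₂; have := abs_nonneg t₃; linarith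
  set W := C * (8 * Real.exp 9) ^ 2 * 2 ^ E * ω ^ E *
    (Y ^ (12 / 1000000 : ℝ) * Y ^ (10465 / 10000 : ℝ)) with hW
  have hW0 : 0 ≤ W := by positivity
  refine ⟨fun n => W * nm n ^ (-(4 / 3) : ℝ), fun n => W * (nm n)⁻¹,
    fun n => mul_nonneg hW0 (Real.rpow_nonneg (nm_nonneg n) _),
    fun n => mul_nonneg hW0 (inv_nonneg.2 (nm_nonneg n)), ?_, ?_⟩
  · intro l h U z S hl hlX hh hhl hU hz hS
    obtain ⟨w, c', hw, hc', hs', hid⟩ :=
      exists_twist j t₂ t₃ R hz hN0 (by linarith) (by linarith) hB0 hB' hX' hc hs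
    have P : Par ε k Y R K X N₀ M₂ M₃ c' := ⟨hε, hY, hR, hK0, hK, hX2, hN, h₂, h₃, hP, hNX, hc', hs'⟩
    have H : Lab X l h := ⟨hl, hlX, hh, hhl⟩
    have key := hRB Y R K X N₀ M₂ M₃ z.re (t₂ + z.im) (t₃ + z.im) U c' S l h P H hz hU hS
    have e : ∀ κ, RS (gq j c M₂ t₂ M₃ t₃ R) X B l h κ z =
        w * RB (pball X) (G3 j c' M₂ (t₂ + z.im) M₃ (t₃ + z.im) z.re R) X l (κ * h * l ^ 3) := by
      intro κ
      rw [RS_eq_RB (γ := gq j c M₂ t₂ M₃ t₃ R) (Γ := cv c (cv (plc j M₂ t₂ R) (plc j M₃ t₃ R))) (fun b => rfl) X B hl h κ z]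
      exact RB_congr _ hid X hl.1 _
    simp only [e, norm_mul, mul_pow]
    rw [← Finset.mul_sum]
    have hτ0 : 0 ≤ tgt Y K U (nm l) := tgt_nonneg hY0.le hK0.le (by linarith) (nm_nonneg l)
    have hw2 : ‖w‖ ^ 2 ≤ (8 * Real.exp 9) ^ 2 * Y ^ (12 / 1000000 : ℝ) := by
      calc ‖w‖ ^ 2 ≤ (8 * Real.exp 9 * (X / B) ^ 3) ^ 2 := pow_le_pow_left₀ (norm_nonneg _) hw 2
        _ = (8 * Real.exp 9) ^ 2 * ((X / B) ^ 3) ^ 2 := by ring
        _ ≤ _ := mul_le_mul_of_nonneg_left hXB (by positivity)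
    have htw : (1 + |t₂ + z.im| + |t₃ + z.im|) ^ E ≤ (2 * ω * (1 + |z.im|)) ^ E := by
      refine pow_le_pow_left₀ (by positivity) ?_ E
      have a1 := abs_add_le t₂ z.im
      have a2 := abs_add_le t₃ z.im
      have a3 := abs_nonneg z.im
      nlinarith
    calc ‖w‖ ^ 2 * ∑ κ ∈ S, ‖RB (pball X) (G3 j c' M₂ (t₂ + z.im) M₃ (t₃ + z.im) z.re R) X l
          (κ * h * l ^ 3)‖ ^ 2
        ≤ ((8 * Real.exp 9) ^ 2 * Y ^ (12 / 1000000 : ℝ)) *
          (C * (2 * ω * (1 + |z.im|)) ^ E * tgt Y K U (nm l)) := by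
          refine mul_le_mul hw2 (key.trans ?_) (Finset.sum_nonneg fun _ _ => by positivity) (by positivity)
          exact mul_le_mul_of_nonneg_right (mul_le_mul_of_nonneg_left htw hC.le) hτ0
      _ = _ := by
          beta_reduce
          rw [hW, tgt, mul_pow, mul_pow]
          ring
  · calc _ ≤ Co * W * Y ^ (18001 / 100000 : ℝ) := hO Y A' B X W E hY hA0.le hA2 hB hXY hW0
      _ = Co * (C * (8 * Real.exp 9) ^ 2 * 2 ^ E) * ω ^ E *
          (Y ^ (12 / 1000000 : ℝ) * Y ^ (10465 / 10000 : ℝ) * Y ^ (18001 / 100000 : ℝ)) := by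
          rw [hW]; ring
      _ ≤ _ := by
          refine mul_le_mul_of_nonneg_left ?_ (by positivity)
          rw [← Real.rpow_add hY0, ← Real.rpow_add hY0]
          exact Real.rpow_le_rpow_of_exponent_le hY1 (by norm_num)

end Crest.Agent.R12
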