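import Crest.Agent.R12.QB.Core
import Crest.Agent.R12.QB.Cut
import Crest.Agent.R12.QB.Rows

/-!
Row 12, block QB: two plain variables at the barrier.
-/

set_option autoImplicit false

namespace Crest.Agent.R12

open Crest.Agent.R17
open scoped ComplexConjugate

namespace QB

theorem main_dv {k : ℕ} {α : O → ℂ} {A X : ℝ} (hα : Supp α A X) (h : Dv k α) : Dv (k + 1) α := by
  intro b
  by_cases h0 : α b = 0
  · have := dn_nonneg b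
    rw [h0, norm_zero]
    positivity
  · have h1 := one_le_dn (hα b h0).1.ne_zero
    exact (h b).trans (pow_le_pow_right₀ h1 (Nat.le_succ k))

theorem main_mono {T P C c e : ℝ} (hT : 1 ≤ T) (hP : 0 ≤ P) (hc : c ≤ C) (he : e ≤ C) (hC : 0 ≤ C) :
    c * T ^ e * P ≤ C * T ^ C * P :=
  mul_le_mul_of_nonneg_right (mul_le_mul hc (Real.rpow_le_rpow_of_exponent_le hT he)
    (Real.rpow_nonneg (by linarith) _) hC) hP

/-- the sizes in the range that is not negligible -/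
theorem main_size {H R A W : ℝ} (hH : 0 < H) (hR : 4 ≤ R) (hW : 0 < W) (hA : H / R ≤ A) (hA' : A ≤ H * R)
    (h1 : H ^ 2 / R < 4 * (A * W) * R ^ 2) (h2 : A * W / R ^ 2 < H ^ 2 * R) :
    H / R ^ 7 ≤ W / R ^ 2 ∧ W ≤ H * R ^ 4 := by
  have hR0 : 0 < R := by linarith
  constructor
  · rw [div_lt_iff₀ hR0] at h1
    rw [div_le_div_iff₀ (by positivity) (by positivity)]
    have h3 : H ^ 2 ≤ H * (4 * W * R ^ 4) := by
      calc H ^ 2 ≤ 4 * (A * W) * R ^ 2 * R := h1.le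
        _ ≤ 4 * (H * R * W) * R ^ 2 * R := by gcongr
        _ = _ := by ring
    have h4 : H ≤ 4 * W * R ^ 4 := by
      rw [sq] at h3
      exact le_of_mul_le_mul_left h3 hH
    calc H * R ^ 2 ≤ 4 * W * R ^ 4 * R ^ 2 := by gcongr
      _ ≤ R * W * R ^ 4 * R ^ 2 := by gcongr
      _ = _ := by ring
  · rw [div_lt_iff₀ (by positivity)] at h2
    rw [div_le_iff₀ hR0] at hA
    have h3 : H * W ≤ H * (H * R ^ 4) := by
      calc H * W ≤ A * R * W := by gcongr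
        _ = A * W * R := by ring
        _ ≤ H ^ 2 * R * R ^ 2 * R := by gcongr
        _ = _ := by ring
    exact le_of_mul_le_mul_left h3 hH

/-- one dyadic piece of `c` -/
theorem qb_piece (h1 : StPOd) (h2 : StT3) (h3 : StL) (hq : StQR) (h7 : StBa) (l : ℤ) :
    ∃ η δ : ℝ, 0 < η ∧ η ≤ 1 / 1000 ∧ 0 < δ ∧ δ ≤ 1 / 2 ∧ ∀ k : ℕ, ∃ C Y₀ : ℝ, 0 < C ∧
    ∀ (Y a A N₀ M₂ M₃ t₂ t₃ : ℝ) (α c : O → ℂ), 2 ≤ Y → Y₀ ≤ Y →
      Y ^ (-η) ≤ a → a ≤ 1 → Y ^ (1 / 2 - η) ≤ A → A ≤ Y ^ (1 / 2 + η) →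
      Y ^ (165 / 1000 : ℝ) ≤ M₂ → Y ^ (165 / 1000 : ℝ) ≤ M₃ → Supp α A (2 * A) → Dv k α → Dv k c →
      1 / 2 ≤ N₀ → (∀ n, c n ≠ 0 → N₀ < nm n ∧ nm n ≤ 2 * N₀) →
      ‖Q4 a Y A α c (plc l M₂ t₂ (Y ^ η)) (plc l M₃ t₃ (Y ^ η))‖ ≤
        C * (1 + |t₂| + |t₃|) ^ C * Y ^ (5 / 6 - δ) := by
  obtain ⟨E, θ₀, δc, hθ₀, hδc, hcore⟩ := gd_Bil h1 h2 h3 hq l
  obtain ⟨ηa, δa, hηa, hδa, hBa⟩ := h7 l
  obtain ⟨η, hη, e1, e2, e3, e4⟩ : ∃ η : ℝ, 0 < η ∧ η ≤ ηa ∧ 7 * η ≤ θ₀ ∧ 7 * η ≤ 1 / 10000 ∧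
      η * E ≤ δc / 2 := by
    have hE : (0 : ℝ) ≤ E := Nat.cast_nonneg E
    refine ⟨min ηa (min (θ₀ / 7) (min (1 / 70000) (δc / 2 / (E + 1)))), by positivity, min_le_left _ _, ?_, ?_, ?_⟩
    · have := (min_le_right ηa _).trans (min_le_left (θ₀ / 7) (min (1 / 70000) (δc / 2 / (E + 1))))
      linarith
    · have := ((min_le_right ηa _).trans (min_le_right (θ₀ / 7) _)).trans
        (min_le_left (1 / 70000 : ℝ) (δc / 2 / (E + 1)))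
      linarith
    · have := ((min_le_right ηa _).trans (min_le_right (θ₀ / 7) _)).trans
        (min_le_right (1 / 70000 : ℝ) (δc / 2 / (E + 1)))
      calc _ ≤ δc / 2 / (E + 1) * (E + 1) := mul_le_mul this (by linarith) hE (by positivity)
        _ = δc / 2 := by field_simp
  obtain ⟨δ, hδ, d1, d2, d3⟩ : ∃ δ : ℝ, 0 < δ ∧ δ ≤ 1 / 2 ∧ δ ≤ δa ∧ δ ≤ δc / 2 :=
    ⟨min (1 / 2) (min δa (δc / 2)), by positivity, min_le_left _ _,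
      (min_le_right _ _).trans (min_le_left _ _), (min_le_right _ _).trans (min_le_right _ _)⟩
  refine ⟨η, δ, hη, by linarith, hδ, d1, fun k => ?_⟩
  obtain ⟨Cc, hCc, hc⟩ := hcore η k hη
  obtain ⟨Ca, ha⟩ := hBa (k + 1)
  obtain ⟨Cu, hCu, hu⟩ := Q4_cut k hη
  obtain ⟨Cf, hCf, hf⟩ := Q4_far k hη
  have hE : (0 : ℝ) ≤ E := Nat.cast_nonneg E
  obtain ⟨C, hC, c1, c2, c3, c4, c5⟩ : ∃ C : ℝ, 0 < C ∧ Cc ≤ C ∧ |Ca| ≤ C ∧ Cu ≤ C ∧ Cf ≤ C ∧ (E : ℝ) ≤ C := by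
    have := abs_nonneg Ca
    exact ⟨Cc + |Ca| + Cu + Cf + E, by positivity, by linarith, by linarith, by linarith, by linarith, by linarith⟩
  refine ⟨3 * C, 4 ^ η⁻¹, by positivity,
    fun Y a A N₀ M₂ M₃ t₂ t₃ α c hY hY₀ ha0 ha1 hA hA' hM2 hM3 hα hdα hdc hN hs => ?_⟩
  have hY1 : 1 ≤ Y := by linarith
  have hY0 : 0 < Y := by linarith
  have hR : 4 ≤ Y ^ η := by
    calc (4 : ℝ) = (4 ^ η⁻¹) ^ η := (Real.rpow_inv_rpow (by norm_num) hη.ne').symm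
      _ ≤ Y ^ η := Real.rpow_le_rpow (by positivity) hY₀ hη.le
  have mono : ∀ {u v : ℝ}, u ≤ v → Y ^ u ≤ Y ^ v := fun h => Real.rpow_le_rpow_of_exponent_le hY1 h
  have pos : ∀ u : ℝ, 0 < Y ^ u := fun u => Real.rpow_pos_of_pos hY0 u
  have hYY : ∀ {u : ℝ}, u ≤ 1 → Y ^ u ≤ Y := fun h => (mono h).trans_eq (Real.rpow_one Y)
  have hapos : 0 < a := (pos _).trans_le ha0
  have hApos : 0 < A := (pos _).trans_le hA
  have hAY : A ≤ Y := hA'.trans (hYY (by linarith))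
  have h2pos : 0 < M₂ := (pos _).trans_le hM2
  have h3pos : 0 < M₃ := (pos _).trans_le hM3
  have hNpos : 0 < N₀ := by linarith
  obtain ⟨T, hT⟩ : ∃ T, T = 1 + |t₂| + |t₃| := ⟨_, rfl⟩
  have hT1 : 1 ≤ T := by
    have := abs_nonneg t₂
    have := abs_nonneg t₃
    linarith
  rw [← hT]
  obtain ⟨P, hP⟩ : ∃ P, P = Y ^ (5 / 6 - δ) := ⟨_, rfl⟩
  have hP1 : 1 ≤ P := hP ▸ Real.one_le_rpow hY1 (by linarith)
  rw [← hP]
  have hTC : 1 ≤ T ^ C := Real.one_le_rpow hT1 hC.le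
  have hfin : 3 * (C * T ^ C * P) ≤ 3 * C * T ^ (3 * C) * P := by
    have : T ^ C ≤ T ^ (3 * C) := Real.rpow_le_rpow_of_exponent_le hT1 (by linarith)
    calc 3 * (C * T ^ C * P) = 3 * C * T ^ C * P := by ring
      _ ≤ _ := by gcongr
  have hone : C ≤ C * T ^ C * P := by
    calc C = C * 1 * 1 := by ring
      _ ≤ _ := by gcongr
  refine le_trans ?_ hfin
  by_cases hfar : 4 * (A * (N₀ * M₂ * M₃)) * (Y ^ η) ^ 2 ≤ Y * Y ^ (-η) ∨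
      Y * Y ^ η ≤ A * (N₀ * M₂ * M₃) / (Y ^ η) ^ 2
  · have := hf l a Y A N₀ M₂ t₂ M₃ t₃ (Y ^ η) α c hapos ha1 hY1 hApos hAY hNpos h2pos h3pos (pos _) hα hdα hdc
      hs hfar
    linarith
  rw [not_or, not_le, not_le] at hfar
  have hH : (Y ^ (1 / 2 : ℝ)) ^ 2 = Y := by
    rw [← Real.rpow_natCast, ← Real.rpow_mul hY0.le]
    norm_num
  have pw : ∀ n : ℕ, (Y ^ η) ^ n = Y ^ (n * η) := fun n => by
    rw [← Real.rpow_natCast, ← Real.rpow_mul hY0.le, mul_comm]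
  obtain ⟨s1, s2⟩ := main_size (H := Y ^ (1 / 2 : ℝ)) (R := Y ^ η) (A := A) (W := N₀ * M₂ * M₃) (pos _) hR
    (by positivity) (by rwa [← Real.rpow_sub hY0]) (by rwa [← Real.rpow_add hY0])
    (by rw [hH, div_eq_mul_inv, ← Real.rpow_neg hY0.le]; exact hfar.1) (by rw [hH]; exact hfar.2)
  have h33 : Y ^ (33 / 100 : ℝ) ≤ M₂ * M₃ := by
    calc Y ^ (33 / 100 : ℝ) = Y ^ (165 / 1000 : ℝ) * Y ^ (165 / 1000 : ℝ) := by
          rw [← Real.rpow_add hY0]; norm_num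
      _ ≤ M₂ * M₃ := mul_le_mul hM2 hM3 (pos _).le h2pos.le
  obtain ⟨M₃', hM₃'⟩ : ∃ M, M = Y ^ (26 / 100 : ℝ) := ⟨_, rfl⟩
  have h3pos' : 0 < M₃' := hM₃' ▸ pos _
  obtain ⟨M₂', hM₂'⟩ : ∃ M, M = M₂ * M₃ / M₃' := ⟨_, rfl⟩
  have h2pos' : 0 < M₂' := by rw [hM₂']; positivity
  have hMM : M₂' * M₃' = M₂ * M₃ := by rw [hM₂']; field_simp
  have hQ : QH (7 * η) η k Y (Y ^ η) (N₀ * M₂ * M₃ / (Y ^ η) ^ 2) (2 * N₀ * M₂ * M₃ * (Y ^ η) ^ 2) N₀ M₂ M₃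
      M₂' M₃' c := by
    refine ⟨e3, hη, hY, le_rfl, ?_, ?_, hN, (mono (by norm_num)).trans hM2, (mono (by norm_num)).trans hM3, ?_,
      hM₃' ▸ mono (by norm_num), hMM, h33, le_rfl, le_rfl, hdc, hs⟩
    · refine le_trans (le_of_eq ?_) s1
      rw [pw, ← Real.rpow_sub hY0]
      norm_num
    · have hRp := pos η
      have hHp := pos (1 / 2)
      calc 2 * N₀ * M₂ * M₃ * (Y ^ η) ^ 2 = 2 * (N₀ * M₂ * M₃) * (Y ^ η) ^ 2 := by ring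
        _ ≤ Y ^ η * (Y ^ (1 / 2 : ℝ) * (Y ^ η) ^ 4) * (Y ^ η) ^ 2 := by gcongr; linarith
        _ = Y ^ (1 / 2 : ℝ) * (Y ^ η) ^ 7 := by ring
        _ = _ := by rw [pw, ← Real.rpow_add hY0]; norm_num
    · rw [hM₂', le_div_iff₀ h3pos', hM₃', ← Real.rpow_add hY0]
      refine le_trans (le_of_eq ?_) h33
      norm_num
  have hs' : ∀ n, c n ≠ 0 → nm n ≤ 2 * N₀ := fun n hn => (hs n hn).2
  -- the difference of the two centrings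
  have b1 : ‖Q4 a Y A α c (plc l M₂ t₂ (Y ^ η)) (plc l M₃ t₃ (Y ^ η)) -
      Q4 a Y A α c (plc l M₂' t₂ (Y ^ η)) (plc l M₃' t₃ (Y ^ η))‖ ≤ C * T ^ C * P := by
    rw [Q4_eq_Bil l a t₂ t₃ hα hN h2pos h3pos (pos _) hQ.hX' hQ.X_le hs',
      Q4_eq_Bil l a t₂ t₃ hα hN h2pos' h3pos' (pos _) hQ.swap.hX' hQ.X_le hs', ← Bil_gd]
    refine (hc (7 * η) Y a (Y ^ η) A _ _ N₀ M₂ M₃ M₂' M₃' t₂ t₃ α c (by linarith) e2 hapos ha1 hQ
      ((mono (by linarith)).trans hA) (hA'.trans (mono (by linarith))) hα hdα).trans ?_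
    rw [← hT]
    have i1 : (a ^ E)⁻¹ ≤ Y ^ (δc / 2) := by
      calc (a ^ E)⁻¹ ≤ ((Y ^ (-η)) ^ E)⁻¹ :=
            inv_anti₀ (pow_pos (pos _) _) (pow_le_pow_left₀ (pos _).le ha0 _)
        _ = Y ^ (η * E) := by
            rw [← Real.rpow_natCast, ← Real.rpow_mul hY0.le, ← Real.rpow_neg hY0.le]
            congr 1
            ring
        _ ≤ _ := mono e4
    have i2 : Y ^ (5 / 6 - δc) * Y ^ (δc / 2) ≤ P := by
      rw [← Real.rpow_add hY0, hP]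
      exact mono (by linarith)
    have hTE : 0 < T ^ E := by positivity
    calc Cc * T ^ E * Y ^ (5 / 6 - δc) * (a ^ E)⁻¹ ≤ Cc * T ^ E * (Y ^ (5 / 6 - δc) * Y ^ (δc / 2)) := by
          rw [mul_assoc (Cc * T ^ E)]
          have := pos (5 / 6 - δc)
          gcongr
      _ ≤ Cc * T ^ (E : ℝ) * P := by rw [Real.rpow_natCast]; gcongr
      _ ≤ _ := main_mono hT1 (by linarith) c1 c5 hC.le
  have b2 := (hu l a Y A M₂' t₂ M₃' t₃ (Y ^ η) α c hY1 hAY h2pos' h3pos' le_rfl hdα hdc).2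
  -- the centred form is a form with one plain variable
  have hsup : ∀ n m, c n ≠ 0 → plc l M₂' t₂ (Y ^ η) m ≠ 0 → nm n * nm m ≤ Y ^ (246 / 1000 : ℝ) := by
    intro n m hn hm
    have hRp := pos η
    have hHp := pos (1 / 2)
    calc nm n * nm m ≤ 2 * N₀ * (M₂' * Y ^ η) :=
          mul_le_mul (hs' n hn) (plc_ne_zero hm).2 (nm_nonneg _) (by positivity)
      _ = 2 * (N₀ * M₂ * M₃) * Y ^ η / M₃' := by rw [hM₂']; ring
      _ ≤ Y ^ η * (Y ^ (1 / 2 : ℝ) * (Y ^ η) ^ 4) * Y ^ η / M₃' := by gcongr; linarith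
      _ = Y ^ (1 / 2 : ℝ) * (Y ^ η) ^ 6 / M₃' := by ring
      _ ≤ _ := by
          rw [pw, hM₃', ← Real.rpow_add hY0, ← Real.rpow_sub hY0]
          refine mono ?_
          push_cast
          linarith
  have b3 : ‖Q4 a Y A α c (plc l M₂' t₂ (Y ^ η)) (pl l M₃' t₃)‖ ≤ C * T ^ C * P := by
    rw [Q4_eq_cv a Y A α c _ _ fun n m _ _ hn hm => (hsup n m hn hm).trans (hYY (by norm_num))]
    refine (ha Y a A M₃' t₃ α _ hY ((mono (by linarith)).trans ha0) ha1 ((mono (by linarith)).trans hA)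
      (hA'.trans (mono (by linarith))) h3pos' hα (main_dv hα hdα) (dv_cv_plc hdc l _ _ _) fun n hn => ?_).trans ?_
    · obtain ⟨u, v, -, -, e, hu, hv⟩ := cv_ne_zero hn
      rw [← e, nm_mul]
      exact hsup u v hu hv
    · have t0 := abs_nonneg t₂
      have t1 := abs_nonneg t₃
      have j1 : (1 + |t₃|) ^ Ca ≤ T ^ C :=
        (Real.rpow_le_rpow_of_exponent_le (by linarith) ((le_abs_self Ca).trans c2)).trans
          (Real.rpow_le_rpow (by linarith) (by linarith) hC.le)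
      have j2 : Y ^ (5 / 6 - δa) ≤ P := hP ▸ mono (by linarith)
      have j3 : 0 ≤ (1 + |t₃|) ^ Ca := by positivity
      have j4 := pos (5 / 6 - δa)
      have j5 : Ca ≤ C := (le_abs_self Ca).trans c2
      calc Ca * (1 + |t₃|) ^ Ca * Y ^ (5 / 6 - δa) ≤ C * (1 + |t₃|) ^ Ca * Y ^ (5 / 6 - δa) := by gcongr
        _ ≤ _ := by gcongr
  calc _ = ‖(Q4 a Y A α c (plc l M₂ t₂ (Y ^ η)) (plc l M₃ t₃ (Y ^ η)) -
        Q4 a Y A α c (plc l M₂' t₂ (Y ^ η)) (plc l M₃' t₃ (Y ^ η))) -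
      (Q4 a Y A α c (plc l M₂' t₂ (Y ^ η)) (pl l M₃' t₃) -
        Q4 a Y A α c (plc l M₂' t₂ (Y ^ η)) (plc l M₃' t₃ (Y ^ η))) +
      Q4 a Y A α c (plc l M₂' t₂ (Y ^ η)) (pl l M₃' t₃)‖ := by congr 1; ring
    _ ≤ C * T ^ C * P + Cu + C * T ^ C * P :=
        (norm_add_le _ _).trans (add_le_add ((norm_sub_le _ _).trans (add_le_add b1 b2)) b3)
    _ ≤ _ := by linarith

theorem stBb' (h1 : StPOd) (h2 : StT3) (h3 : StL) (hq : StQR) (h7 : StBa) : StBb := by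
  intro l
  obtain ⟨η, δ, hη, hη', hδ, hδ', h⟩ := qb_piece h1 h2 h3 hq h7 l
  refine ⟨η, δ / 2, hη, by positivity, fun k => ?_⟩
  obtain ⟨C₁, Y₀, hC₁, hp⟩ := h k
  obtain ⟨Cu, hCu, hu⟩ := Q4_cut k hη
  obtain ⟨Ct, hCt, ht⟩ := Q4_triv k
  obtain ⟨Cl, hCl, hl⟩ := one_add_log_rpow_le 1 (ε := δ / 2) (by positivity)
  obtain ⟨C, hC, c1, c2, c3, c4⟩ : ∃ C : ℝ, 0 < C ∧ Ct * Y₀ ^ 6 ≤ C ∧ Cu ≤ C ∧ 3 * Cl * C₁ ≤ C ∧ C₁ ≤ C := by
    have : 0 ≤ Ct * Y₀ ^ 6 := by positivity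
    have : 0 ≤ 3 * Cl * C₁ := by positivity
    exact ⟨Ct * Y₀ ^ 6 + Cu + 3 * Cl * C₁ + C₁, by positivity, by linarith, by linarith, by linarith, by linarith⟩
  refine ⟨2 * C, fun Y a A M₂ M₃ t₂ t₃ α c hY ha0 ha1 hA hA' hM2 hM3 hα hdα hdc => ?_⟩
  change ‖Q4 a Y A α c (pl l M₂ t₂) (pl l M₃ t₃)‖ ≤ _
  have hY1 : 1 ≤ Y := by linarith
  have hY0 : 0 < Y := by linarith
  have pos : ∀ u : ℝ, 0 < Y ^ u := fun u => Real.rpow_pos_of_pos hY0 u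
  have hAY : A ≤ Y :=
    hA'.trans ((Real.rpow_le_rpow_of_exponent_le hY1 (by linarith)).trans_eq (Real.rpow_one Y))
  obtain ⟨T, hT⟩ : ∃ T, T = 1 + |t₂| + |t₃| := ⟨_, rfl⟩
  have hT1 : 1 ≤ T := by
    have := abs_nonneg t₂
    have := abs_nonneg t₃
    linarith
  rw [← hT]
  obtain ⟨P, hP⟩ : ∃ P, P = Y ^ (5 / 6 - δ / 2) := ⟨_, rfl⟩
  have hP1 : 1 ≤ P := hP ▸ Real.one_le_rpow hY1 (by linarith)
  rw [← hP]
  have hTC : 1 ≤ T ^ C := Real.one_le_rpow hT1 hC.le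
  have hfin : 2 * (C * T ^ C * P) ≤ 2 * C * T ^ (2 * C) * P := by
    have : T ^ C ≤ T ^ (2 * C) := Real.rpow_le_rpow_of_exponent_le hT1 (by linarith)
    calc 2 * (C * T ^ C * P) = 2 * C * T ^ C * P := by ring
      _ ≤ _ := by gcongr
  have hone : C ≤ C * T ^ C * P := by
    calc C = C * 1 * 1 := by ring
      _ ≤ _ := by gcongr
  refine le_trans ?_ hfin
  rcases le_or_gt Y₀ Y with hY₀ | hY₀
  · have b1 := (hu l a Y A M₂ t₂ M₃ t₃ (Y ^ η) α c hY1 hAY ((pos _).trans_le hM2) ((pos _).trans_le hM3) le_rfl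
      hdα hdc).1
    have hTC₁ : 0 < T ^ C₁ := by positivity
    have hPδ := pos (5 / 6 - δ)
    have b2 := Q4_dy (a := a) (A := A) (α := α) (f := plc l M₂ t₂ (Y ^ η)) (g := plc l M₃ t₃ (Y ^ η))
      (D := C₁ * T ^ C₁ * Y ^ (5 / 6 - δ)) hY (by positivity) hdc fun N₀ c' hN hd hs =>
        hT ▸ hp Y a A N₀ M₂ M₃ t₂ t₃ α c' hY hY₀ ha0 ha1 hA hA' hM2 hM3 hα hdα hd hN hs
    have b3 : 3 * (1 + Real.log Y) * (C₁ * T ^ C₁ * Y ^ (5 / 6 - δ)) ≤ C * T ^ C * P := by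
      have i1 := hl Y hY1
      rw [Real.rpow_one] at i1
      have i2 : Y ^ (δ / 2) * Y ^ (5 / 6 - δ) = P := by
        rw [← Real.rpow_add hY0, hP]
        congr 1
        ring
      calc 3 * (1 + Real.log Y) * (C₁ * T ^ C₁ * Y ^ (5 / 6 - δ))
          ≤ 3 * (Cl * Y ^ (δ / 2)) * (C₁ * T ^ C₁ * Y ^ (5 / 6 - δ)) := by gcongr
        _ = 3 * Cl * C₁ * T ^ C₁ * (Y ^ (δ / 2) * Y ^ (5 / 6 - δ)) := by ring
        _ ≤ _ := by rw [i2]; exact main_mono hT1 (by linarith) c3 c4 hC.le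
    calc _ = ‖(Q4 a Y A α c (pl l M₂ t₂) (pl l M₃ t₃) -
          Q4 a Y A α c (plc l M₂ t₂ (Y ^ η)) (plc l M₃ t₃ (Y ^ η))) +
          Q4 a Y A α c (plc l M₂ t₂ (Y ^ η)) (plc l M₃ t₃ (Y ^ η))‖ := by congr 1; ring
      _ ≤ Cu + C * T ^ C * P := (norm_add_le _ _).trans (add_le_add b1 (b2.trans b3))
      _ ≤ _ := by linarith
  · have b1 := ht a Y A 1 1 1 α c (pl l M₂ t₂) (pl l M₃ t₃) hY1 hAY zero_le_one zero_le_one zero_le_one hdα hdc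
      (fun n _ => norm_pl_le _ _ _ n) (fun n _ => norm_pl_le _ _ _ n) fun _ _ _ _ _ _ _ _ => LW_le_one _ _ _
    have b2 : Ct * Y ^ 6 * (1 * 1 * 1) ≤ Ct * Y₀ ^ 6 := by
      rw [mul_one, mul_one, mul_one]
      gcongr
    linarith

end QB

theorem stBb (h1 : StPOd) (h2 : StT3) (h3 : StL) (h4 : StAllG) (h5 : StMom) (h6 : StPV) (h7 : StBa) : StBb :=
  QB.stBb' h1 h2 h3 (stQR h4 h5 h6) h7

end Crest.Agent.R12
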