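import Crest.Agent.R12.QB.En

/-!
Row 12, block QB: the general row bound and the amplification.
-/

set_option autoImplicit false

namespace Crest.Agent.R12.QB

open Crest.Agent.R17
open scoped ComplexConjugate

/-- `LW 1 A x ≥ exp (-(log 2)²/2) ≥ 1/2` on `[A, 2A]` (or `btc_LW_ge`), `sum_le_EN` -/
theorem amp_le_EN : ∃ C : ℝ, 0 < C ∧ ∀ (A X : ℝ) (γ : O → ℂ) (R : Finset O), 0 < A →
    (∀ x ∈ R, Prim x ∧ A ≤ nm x ∧ nm x ≤ 2 * A) → ∑ x ∈ R, ‖XG γ X x‖ ^ 2 ≤ C * EN 1 A γ X := by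
  refine ⟨_, Real.exp_pos (Real.log 16 ^ 2 / 2), fun A X γ R hA hR => le_trans ?_ (mul_le_mul_of_nonneg_left
    (sum_le_EN one_pos hA γ X fun x hx => (hR x hx).1) (Real.exp_pos _).le)⟩
  rw [Finset.mul_sum]
  refine Finset.sum_le_sum fun x hx => ?_
  rw [← mul_assoc]
  exact le_mul_of_one_le_left (sq_nonneg _) (btc_LW_ge hA (hR x hx).2.1 (by linarith [(hR x hx).2.2]))

theorem ampa_N2d {γ : O → ℂ} {B X : ℝ} (hγ : Supp γ B X) (i : ℕ) (Y : ℝ) : N2d (dy i γ) Y ≤ N2d γ X := by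
  refine (Finset.sum_le_sum fun b _ => mul_le_mul_of_nonneg_right
    (pow_le_pow_left₀ (norm_nonneg _) (norm_dy_le i γ b) 2) (pow_nonneg (dn_nonneg b) 4)).trans ?_
  classical
  rw [← Finset.sum_filter_ne_zero]
  refine Finset.sum_le_sum_of_subset_of_nonneg (fun b hb => mem_ball.2 (hγ b fun h =>
    (Finset.mem_filter.1 hb).2 ?_).2.2) fun b _ _ => mul_nonneg (sq_nonneg _) (pow_nonneg (dn_nonneg b) 4)
  simp [h]

/-- Dyadic columns: `XG γ X x = ∑_{i < N} XG (dy i γ) (2 · 2^i) x` (`sum_ball_dy`, `exists_dy_range`), Cauchy–Schwarz over `i`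
(`sq_sum_le_card_mul_sum_sq`).  If `X ≤ 2^i` then `dy i γ = 0`; else `amp_le_EN`, `h3 (ε/2)` with `a = 1`, `B = 2^i ≤ X`
(`supp_dy`), `N2 ≤ N2d` and `N2d (dy i γ) (2 · 2^i) ≤ N2d γ X`; `N² ≤ 9 log² X ≤ C X^(ε/2)`. -/
theorem rows_L (h3 : StL) {ε : ℝ} (hε : 0 < ε) : ∃ C : ℝ, 0 < C ∧ ∀ (A X : ℝ) (γ : O → ℂ) (R : Finset O),
    1 ≤ A → 2 ≤ X → Supp γ 1 X → (∀ x ∈ R, Prim x ∧ A ≤ nm x ∧ nm x ≤ 2 * A) →
    ∑ x ∈ R, ‖XG γ X x‖ ^ 2 ≤
      C * X ^ ε * (A + (A * X) ^ (2 / 3 : ℝ) + A ^ (1 / 3 : ℝ) * X) * N2d γ X := by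
  obtain ⟨C₀, hC₀, h₀⟩ := amp_le_EN
  obtain ⟨C, h⟩ := h3 (ε / 2) (half_pos hε)
  refine ⟨(12 / ε) ^ 2 * (C₀ * (|C| + 1) * (2 * 2 ^ (ε / 2))), by positivity, fun A X γ R hA hX hγ hR => ?_⟩
  obtain ⟨N, hN, hN'⟩ := exists_dy_range hX
  have hX0 : 0 < X := by linarith
  have hn := N2d_nonneg γ X
  have e : ∀ x, XG γ X x = ∑ i ∈ Finset.range N, XG (dy i γ) (2 * 2 ^ i) x := fun x => by
    simp only [XG, mul_assoc]
    exact sum_ball_dy γ _ (fun b hb => (hγ b hb).2) hN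
  have key : ∀ i ∈ Finset.range N, ∑ x ∈ R, ‖XG (dy i γ) (2 * 2 ^ i) x‖ ^ 2 ≤
      C₀ * (|C| + 1) * (2 * 2 ^ (ε / 2)) * X ^ (ε / 2) *
        (A + (A * X) ^ (2 / 3 : ℝ) + A ^ (1 / 3 : ℝ) * X) * N2d γ X := fun i _ => by
    rcases le_total X (2 ^ i) with hi | hi
    · have h1 : ∀ b, dy i γ b = 0 := fun b => by
        unfold dy
        split_ifs with h1
        · exact by_contra fun h2 => absurd ((hγ b h2).2.2.trans hi) (not_le.2 h1.1)
        · rfl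
      simp only [XG, h1, zero_mul, Finset.sum_const_zero, norm_zero, zero_pow two_ne_zero]
      positivity
    · have hs := supp_dy i fun b hb => (hγ b hb).1
      have hB : (1 : ℝ) ≤ 2 ^ i := one_le_pow₀ one_le_two
      have h1 := h 1 A _ _ one_pos le_rfl hA (by linarith) hs
      have h2 := (N2_le_N2d hs).trans (ampa_N2d hγ i _)
      have h3 := ampa_N2d hγ i (2 * 2 ^ i)
      have h4 := N2_nonneg (dy i γ) (2 * 2 ^ i)
      have h5 := N2d_nonneg (dy i γ) (2 * 2 ^ i)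
      have h6 : √A ≤ A := Real.sqrt_le_self_iff.2 (Or.inr hA)
      have h7 : 1 ≤ (2 * X) ^ (ε / 2) := Real.one_le_rpow (by linarith) (by positivity)
      have h8 : X ≤ A ^ (1 / 3 : ℝ) * X := le_mul_of_one_le_left hX0.le (Real.one_le_rpow hA (by norm_num))
      have h9 : C ≤ |C| + 1 := (le_abs_self C).trans (le_add_of_nonneg_right zero_le_one)
      rw [Real.one_rpow, Real.one_rpow, one_mul, one_mul, mul_one, div_one, div_one] at h1
      refine (h₀ A _ _ R (by linarith) hR).trans ((mul_le_mul_of_nonneg_left h1 hC₀.le).trans ?_)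
      have h10 := mul_le_mul_of_nonneg_right h7
        (show 0 ≤ (2 * A + 2 * (A * X) ^ (2 / 3 : ℝ)) * N2d γ X by positivity)
      have h11 : 0 ≤ (A * X) ^ (2 / 3 : ℝ) * N2d γ X := by positivity
      calc _ ≤ C₀ * ((|C| + 1) * ((A + A) * N2d γ X + (A * X) ^ (2 / 3 : ℝ) * N2d γ X +
            (2 * X) ^ (ε / 2) * (A ^ (1 / 3 : ℝ) * X + A ^ (1 / 3 : ℝ) * X) * N2d γ X)) := by
            gcongr
            exact hi.trans h8
        _ ≤ C₀ * ((|C| + 1) * (2 * (2 * X) ^ (ε / 2) *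
            (A + (A * X) ^ (2 / 3 : ℝ) + A ^ (1 / 3 : ℝ) * X) * N2d γ X)) := by
            gcongr C₀ * ((|C| + 1) * ?_)
            linarith
        _ = _ := by
            rw [Real.mul_rpow zero_le_two hX0.le]
            ring
  have h1 : (N : ℝ) ^ 2 ≤ (12 / ε) ^ 2 * X ^ (ε / 2) := by
    have h2 := Real.log_le_rpow_div hX0.le (show 0 < ε / 4 by positivity)
    have h3 : (N : ℝ) ≤ 12 / ε * X ^ (ε / 4) :=
      hN'.trans ((mul_le_mul_of_nonneg_left h2 (by norm_num)).trans_eq (by field_simp; ring))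
    refine (pow_le_pow_left₀ (Nat.cast_nonneg N) h3 2).trans_eq ?_
    rw [mul_pow, ← Real.rpow_mul_natCast hX0.le]
    congr 2
    push_cast
    ring
  calc _ ≤ ∑ x ∈ R, N * ∑ i ∈ Finset.range N, ‖XG (dy i γ) (2 * 2 ^ i) x‖ ^ 2 := by
        refine Finset.sum_le_sum fun x _ => ?_
        rw [e]
        refine (pow_le_pow_left₀ (norm_nonneg _) (norm_sum_le _ _) 2).trans ?_
        simpa using sq_sum_le_card_mul_sum_sq (s := Finset.range N)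
          (f := fun i => ‖XG (dy i γ) (2 * 2 ^ i) x‖)
    _ ≤ N * (N * (C₀ * (|C| + 1) * (2 * 2 ^ (ε / 2)) * X ^ (ε / 2) *
        (A + (A * X) ^ (2 / 3 : ℝ) + A ^ (1 / 3 : ℝ) * X) * N2d γ X)) := by
        rw [← Finset.mul_sum, Finset.sum_comm]
        refine mul_le_mul_of_nonneg_left ((Finset.sum_le_card_nsmul _ _ _ key).trans_eq ?_) (Nat.cast_nonneg N)
        rw [Finset.card_range, nsmul_eq_mul]
    _ ≤ (12 / ε) ^ 2 * X ^ (ε / 2) * (C₀ * (|C| + 1) * (2 * 2 ^ (ε / 2)) * X ^ (ε / 2) *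
        (A + (A * X) ^ (2 / 3 : ℝ) + A ^ (1 / 3 : ℝ) * X) * N2d γ X) := by
        rw [← mul_assoc, ← sq]
        exact mul_le_mul_of_nonneg_right h1 (by positivity)
    _ = _ := by
        rw [show X ^ ε = X ^ (ε / 2) * X ^ (ε / 2) by rw [← Real.rpow_add hX0, add_halves]]
        ring

open Classical in
theorem ampb_N2d {γ : O → ℂ} {X : ℝ} (hγ : Supp γ 1 X) {Ps : Finset O} (hPs : ∀ p ∈ Ps, Prim p) :
    ∑ p ∈ Ps, N2d (fun b => if p ∣ b then γ b else 0) X ≤ ∑ b ∈ ball X, ‖γ b‖ ^ 2 * dn b ^ 5 := by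
  unfold N2d
  rw [Finset.sum_comm]
  refine Finset.sum_le_sum fun b _ => ?_
  by_cases h0 : γ b = 0
  · simp [h0]
  have hb : b ≠ 0 := (hγ b h0).1.ne_zero
  have e : ∑ p ∈ Ps, ‖if p ∣ b then γ b else 0‖ ^ 2 * dn b ^ 4 =
      ((Ps.filter fun p => p ∣ b).card : ℝ) * (‖γ b‖ ^ 2 * dn b ^ 4) := by
    rw [← nsmul_eq_mul, ← Finset.sum_const, Finset.sum_filter]
    refine Finset.sum_congr rfl fun p _ => ?_
    split_ifs <;> simp
  have hc : ((Ps.filter fun p => p ∣ b).card : ℝ) ≤ dn b := by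
    unfold dn
    exact_mod_cast Finset.card_le_card fun p hp =>
      (mem_pdiv hb).2 ⟨hPs p (Finset.mem_filter.1 hp).1, (Finset.mem_filter.1 hp).2⟩
  have hd := dn_nonneg b
  rw [e]
  calc _ ≤ dn b * (‖γ b‖ ^ 2 * dn b ^ 4) := mul_le_mul_of_nonneg_right hc (by positivity)
    _ = _ := by ring

theorem ampb_log {Z δ : ℝ} (hZ : 1 ≤ Z) (hδ : 0 < δ) : Real.log Z ≤ Z ^ δ / δ :=
  Real.log_le_rpow_div (by linarith) hδ

/-- `P < P₁ = max P₀ 2`: `rows_L`, `en_sq_le` (`j = 4`), `1 ≤ P₁ / P`, `0 ≤ EN` (`tsum_nonneg`).  Else `amp` with the primes of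
`exists_many_primes` (`c P / log P ≤ card`); second term: `rows_L` for `fun b => if p ∣ b then γ b else 0` and
`∑_p N2d (γ 1_{p ∣ ·}) X ≤ ∑ ‖γ b‖² dn b ^ 5` (the `p ∈ Ps` dividing `b` lie in `pdiv b`), `en_sq_le` (`j = 5`);
`log (16 A P³), log P ≤ C Z^(ε/3)`. -/
theorem rows_amp (h3 : StL) (k : ℕ) {ε : ℝ} (hε : 0 < ε) : ∃ C : ℝ, 0 < C ∧
    ∀ (Z A P X : ℝ) (γ : O → ℂ) (R : Finset O), 1 ≤ A → A ≤ Z → 1 ≤ P → P ≤ Z → 2 ≤ X → X ≤ Z →
      Supp γ 1 X → Dv k γ → (∀ x ∈ R, Prim x ∧ A ≤ nm x ∧ nm x ≤ 2 * A) →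
      ∑ x ∈ R, ‖XG γ X x‖ ^ 2 ≤ C * Z ^ ε / P *
        (EN 1 (A * P ^ 3) γ X + (A + (A * X) ^ (2 / 3 : ℝ) + A ^ (1 / 3 : ℝ) * X) * X) := by
  classical
  have hδ : 0 < ε / 3 := by positivity
  set δ := ε / 3 with hδe
  obtain ⟨C₁, hC₁, hL⟩ := rows_L h3 hδ
  obtain ⟨C₄, hC₄, h4⟩ := en_sq_le k 4 hδ
  obtain ⟨C₅, hC₅, h5⟩ := en_sq_le k 5 hδ
  obtain ⟨Ca, hCa, hamp⟩ := amp
  obtain ⟨c, hc, P₀, hpr⟩ := exists_many_primes
  set P₁ := max P₀ 2 with hP₁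
  have hP₁2 : 2 ≤ P₁ := le_max_right _ _
  have hP₁0 : 0 < P₁ := by linarith
  set K₁ := C₁ * C₄ * P₁ with hK₁
  set K₂ := 8 * Ca / (c * δ) with hK₂
  set K₃ := 2 * C₁ * C₅ / (c * δ) with hK₃
  have hK₁0 : 0 < K₁ := by positivity
  have hK₂0 : 0 < K₂ := by positivity
  have hK₃0 : 0 < K₃ := by positivity
  refine ⟨K₁ + K₂ + K₃, by positivity, fun Z A P X γ R hA hAZ hP hPZ hX hXZ hγ hk hR => ?_⟩
  have hA0 : 0 < A := by linarith
  have hP0 : 0 < P := by linarith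
  have hX0 : 0 < X := by linarith
  have hZ1 : 1 ≤ Z := by linarith
  have hZ0 : 0 < Z := by linarith
  set W := A + (A * X) ^ (2 / 3 : ℝ) + A ^ (1 / 3 : ℝ) * X with hW
  have hW0 : 0 ≤ W := by positivity
  set E := EN 1 (A * P ^ 3) γ X with hE
  have hE0 : 0 ≤ E := tsum_nonneg fun x => mul_nonneg (LW_pos _ _ _).le (sq_nonneg _)
  set S := ∑ x ∈ R, ‖XG γ X x‖ ^ 2 with hS
  set u := Z ^ δ with hu
  have hu1 : 1 ≤ u := Real.one_le_rpow hZ1 hδ.le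
  have hu0 : 0 < u := by linarith
  have hu3 : Z ^ ε = u ^ 3 := by
    rw [hu, ← Real.rpow_natCast, ← Real.rpow_mul hZ0.le, hδe]
    congr 1; push_cast; ring
  have hXu : X ^ δ ≤ u := Real.rpow_le_rpow hX0.le hXZ hδ.le
  have hXd : 0 ≤ X ^ δ := Real.rpow_nonneg hX0.le _
  have hWX : 0 ≤ W * X := mul_nonneg hW0 hX0.le
  have hu13 : u ≤ u ^ 3 := le_self_pow₀ hu1 (by norm_num)
  have hu23 : u ^ 2 ≤ u ^ 3 := pow_le_pow_right₀ hu1 (by norm_num)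
  rw [hu3]
  have hfin : ∀ a b : ℝ, a ≤ K₁ + K₂ + K₃ → b ≤ K₁ + K₂ + K₃ →
      P * S ≤ a * u ^ 3 * E + b * u ^ 3 * (W * X) → S ≤ (K₁ + K₂ + K₃) * u ^ 3 / P * (E + W * X) := by
    intro a b ha hb h
    rw [div_mul_eq_mul_div, le_div_iff₀ hP0, mul_comm S]
    refine h.trans ?_
    rw [mul_add ((K₁ + K₂ + K₃) * u ^ 3)]
    have : 0 ≤ u ^ 3 := by positivity
    gcongr
  rcases lt_or_ge P P₁ with hlt | hge
  · refine hfin 0 K₁ (by positivity) (by linarith) ?_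
    have h1 := hL A X γ R hA hX hγ hR
    have h2 : N2d γ X ≤ C₄ * X ^ δ * X := h4 γ 1 X (by linarith) hγ hk
    have h6 : S ≤ C₁ * C₄ * u ^ 3 * (W * X) :=
      calc S ≤ C₁ * X ^ δ * W * N2d γ X := h1
        _ ≤ C₁ * X ^ δ * W * (C₄ * X ^ δ * X) := by gcongr
        _ ≤ C₁ * u * W * (C₄ * u * X) := by gcongr
        _ = C₁ * C₄ * u ^ 2 * (W * X) := by ring
        _ ≤ _ := by gcongr
    have hS0 : 0 ≤ S := Finset.sum_nonneg fun _ _ => sq_nonneg _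
    calc P * S ≤ P₁ * (C₁ * C₄ * u ^ 3 * (W * X)) := mul_le_mul hlt.le h6 hS0 hP₁0.le
      _ = _ := by rw [hK₁]; ring
  · refine hfin K₂ K₃ (by linarith) (by linarith) ?_
    have hP2 : 2 ≤ P := hP₁2.trans hge
    obtain ⟨Ps, hPs, hcard⟩ := hpr P ((le_max_left _ _).trans hge)
    have hl0 : 0 < Real.log P := Real.log_pos (by linarith)
    have h1 := hamp A P 1 X R Ps γ hA hP2 hγ hR hPs
    have h2 : ∑ p ∈ Ps, ∑ x ∈ R, ‖XG (fun b => if p ∣ b then γ b else 0) X x‖ ^ 2 ≤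
        C₁ * C₅ * u ^ 2 * (W * X) :=
      calc _ ≤ ∑ p ∈ Ps, C₁ * X ^ δ * W * N2d (fun b => if p ∣ b then γ b else 0) X := by
            refine Finset.sum_le_sum fun p _ => hL A X _ R hA hX (fun b hb => hγ b fun h0 => hb ?_) hR
            simp [h0]
        _ = C₁ * X ^ δ * W * ∑ p ∈ Ps, N2d (fun b => if p ∣ b then γ b else 0) X := by
            rw [Finset.mul_sum]
        _ ≤ C₁ * X ^ δ * W * (C₅ * X ^ δ * X) := by
            refine mul_le_mul_of_nonneg_left ?_ (by positivity)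
            exact (ampb_N2d hγ fun p hp => (hPs p hp).2.1).trans (h5 γ 1 X (by linarith) hγ hk)
        _ ≤ C₁ * u * W * (C₅ * u * X) := by gcongr
        _ = _ := by ring
    have hlZ : Real.log Z ≤ u / δ := ampb_log hZ1 hδ
    have hlP : Real.log P ≤ u / δ := (Real.log_le_log hP0 hPZ).trans hlZ
    have hl16 : Real.log (16 * A * P ^ 3) ≤ 8 * (u ^ 3 / δ) := by
      have hZ2 : 2 ≤ Z := hX.trans hXZ
      have e1 : 16 * A * P ^ 3 ≤ Z ^ 8 :=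
        calc 16 * A * P ^ 3 = 2 ^ 4 * A * P ^ 3 := by norm_num
          _ ≤ Z ^ 4 * Z * Z ^ 3 := by gcongr
          _ = Z ^ 8 := by ring
      calc Real.log (16 * A * P ^ 3) ≤ Real.log (Z ^ 8) := Real.log_le_log (by positivity) e1
        _ = 8 * Real.log Z := by rw [Real.log_pow]; norm_num
        _ ≤ 8 * (u / δ) := by linarith
        _ ≤ _ := by gcongr
    have hS0 : 0 ≤ S := Finset.sum_nonneg fun _ _ => sq_nonneg _
    have h7 : c * P / Real.log P * S ≤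
        Ca * (8 * (u ^ 3 / δ) / Real.log P) * E + 2 * (C₁ * C₅ * u ^ 2 * (W * X)) := by
      refine (mul_le_mul_of_nonneg_right hcard hS0).trans (h1.trans (add_le_add ?_ ?_))
      · gcongr
      · linarith
    calc P * S = Real.log P / c * (c * P / Real.log P * S) := by field_simp
      _ ≤ Real.log P / c *
          (Ca * (8 * (u ^ 3 / δ) / Real.log P) * E + 2 * (C₁ * C₅ * u ^ 2 * (W * X))) :=
        mul_le_mul_of_nonneg_left h7 (by positivity)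
      _ = K₂ * u ^ 3 * E + Real.log P * (2 * C₁ * C₅ / c * u ^ 2 * (W * X)) := by
        rw [hK₂]; field_simp
      _ ≤ K₂ * u ^ 3 * E + u / δ * (2 * C₁ * C₅ / c * u ^ 2 * (W * X)) := by gcongr
      _ = _ := by rw [hK₃]; field_simp

end Crest.Agent.R12.QB
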