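import Crest.Agent.R12.QB.Cv
import Crest.Agent.R12.Base.Sep

/-!
Row 12, block QB: separation of the weight `LW a Y (N (x b))` by Mellin inversion on `Re s = 0`.
-/

set_option autoImplicit false

namespace Crest.Agent.R12.QB

open Crest.Agent.R17
open scoped ComplexConjugate

theorem sep_tw (γ : O → ℂ) (τ : ℝ) {b : O} (hb : b ≠ 0) : QA.tw γ 1 τ b = γ b * tw τ (nm b) := by
  rw [QA.tw, div_one, LNa_cpow (nm_pos hb), tw]
  congr 2
  push_cast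
  ring

theorem Bil_sep (E : ℕ) : ∃ C : ℝ, 0 < C ∧ ∀ (a Y XA XB D : ℝ) (α γ : O → ℂ), 0 < a → a ≤ 1 → 0 < Y →
    0 ≤ D → (∀ τ : ℝ, ‖∑ x ∈ ball XA, ∑ b ∈ ball XB,
      α x * tw τ (nm x) * (γ b * tw τ (nm b)) * f0 (x * b)‖ ≤ D * (1 + |τ|) ^ E) →
    ‖Bil a Y α γ XA XB‖ ≤ C * D * (a ^ E)⁻¹ := by
  obtain ⟨C, hC, h⟩ := QA.bil_sep E
  refine ⟨C + 1, by linarith, fun a Y XA XB D α γ ha ha1 hY hD hτ => ?_⟩
  refine (h a Y 1 D XA XB α γ ha ha1 hY one_pos fun τ => ?_).trans ?_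
  · refine le_of_eq_of_le ?_ (hτ τ)
    congr 1
    refine Finset.sum_congr rfl fun x _ => Finset.sum_congr rfl fun b _ => ?_
    by_cases h0 : x * b = 0
    · rw [f0_eq_zero (n := x * b) fun hp => hp.ne_zero h0, mul_zero, mul_zero]
    · rw [sep_tw _ _ (left_ne_zero_of_mul h0), sep_tw _ _ (right_ne_zero_of_mul h0)]
  · gcongr
    linarith

end Crest.Agent.R12.QB
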