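import Crest.Agent.R12.QB.Vm

/-!
Row 12, block QB: the model sum of the difference of the two centrings is small.
-/

set_option autoImplicit false

namespace Crest.Agent.R12.QB

open Crest.Agent.R17
open scoped ComplexConjugate

open Classical in
/-- `sum_gq` with `Z = X`, `F b = if IsCoprime b x then n6 b else 0`; `psq_mul_iff`, `n6_mul`:
`PSq (n₀ n₂ n₃) ∧ IsCoprime (n₀ n₂ n₃) x ↔ (PSq n₀ ∧ IsCoprime n₀ x) ∧ Squarefree (n₂ n₃) ∧ IsCoprime (n₂ n₃) (x n₀)`. -/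
theorem YM_gq (l : ℤ) {c : O → ℂ} {N₀ M₂ M₃ R X : ℝ} (t₂ t₃ : ℝ) (hN : 1 / 2 ≤ N₀) (h2 : 0 < M₂)
    (h3 : 0 < M₃) (hR : 0 < R) (hX : 2 * N₀ * M₂ * M₃ * R ^ 2 ≤ X) (hc : ∀ n, c n ≠ 0 → nm n ≤ 2 * N₀) (x : O) :
    YM (gq l c M₂ t₂ M₃ t₃ R) X x = ∑ n₀ ∈ pball X,
      if PSq n₀ ∧ IsCoprime n₀ x then c n₀ * (n6 n₀ : ℂ) * VS l M₂ t₂ M₃ t₃ R X (x * n₀) else 0 := by
  have h := sum_gq l t₂ t₃ hN h2 h3 hR hX le_rfl hc fun b => if IsCoprime b x then (n6 b : ℂ) else 0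
  refine Eq.trans (Finset.sum_congr rfl fun b _ => by rw [mul_ite, mul_zero]) (h.trans ?_)
  refine Finset.sum_congr rfl fun n₀ h₀ => ?_
  have key : ∀ n₂ ∈ pball X, ∀ n₃ ∈ pball X, PSq (n₀ * n₂ * n₃) ∧ IsCoprime (n₀ * n₂ * n₃) x ↔
      (PSq n₀ ∧ IsCoprime n₀ x) ∧ Squarefree (n₂ * n₃) ∧ IsCoprime (n₂ * n₃) (x * n₀) := by
    intro n₂ h₂ n₃ h₃
    have hp := (mem_pball.1 h₂).2.mul (mem_pball.1 h₃).2
    rw [mul_assoc, psq_mul_iff (mem_pball.1 h₀).2 hp, IsCoprime.mul_left_iff (x := n₀),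
      IsCoprime.mul_right_iff (x := n₂ * n₃), isCoprime_comm (x := n₀) (y := n₂ * n₃)]
    exact ⟨fun h => ⟨⟨h.1.1, h.2.1⟩, h.1.2.1.2, h.2.2, h.1.2.2⟩,
      fun h => ⟨⟨h.1.1, ⟨hp, h.2.1⟩, h.2.2.2⟩, h.1.2, h.2.2.1⟩⟩
  simp only [mul_ite, mul_zero, ← ite_and]
  split_ifs with h1
  · rw [VS, Finset.mul_sum]
    refine Finset.sum_congr rfl fun n₂ h₂ => ?_
    rw [Finset.mul_sum]
    refine Finset.sum_congr rfl fun n₃ h₃ => ?_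
    by_cases h4 : Squarefree (n₂ * n₃) ∧ IsCoprime (n₂ * n₃) (x * n₀)
    · rw [if_pos h4, if_pos ((key n₂ h₂ n₃ h₃).2 ⟨h1, h4⟩), n6_mul, n6_mul]
      push_cast
      ring
    · rw [if_neg h4, if_neg fun h => h4 ((key n₂ h₂ n₃ h₃).1 h).2, mul_zero]
  · exact Finset.sum_eq_zero fun n₂ h₂ => Finset.sum_eq_zero fun n₃ h₃ =>
      if_neg fun h => h1 ((key n₂ h₂ n₃ h₃).1 h).1

theorem ym_num {θ Y R B X N P : ℝ} (hθ : θ ≤ 1 / 10000) (hY : 1 ≤ Y) (hR : 1 ≤ R) (hN : 0 < N)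
    (hP : 0 < P) (hB : Y ^ (1 / 2 - θ) ≤ B) (hX : X ≤ Y ^ (1 / 2 + θ)) (h1 : B * R ^ 4 ≤ X)
    (h2 : N * P ≤ X) :
    N * (Y ^ (1 / 4000 : ℝ) * N ^ (-(1 : ℝ) / 6)) * (Y ^ (1 / 4000 : ℝ) * R ^ 3 * P ^ (5 / 6 : ℝ) /
      √(Y ^ (7 / 100 : ℝ))) ≤ Y ^ (5 / 12 - 34 / 1000 : ℝ) := by
  have hY0 : 0 < Y := by linarith
  have hR0 : 0 < R := by linarith
  have hB0 : 0 < B := lt_of_lt_of_le (by positivity) hB
  have a1 := Real.log_le_log (by positivity) hB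
  have a2 := Real.log_le_log (by positivity) (h1.trans hX)
  have a3 := Real.log_le_log (by positivity) (h2.trans hX)
  have a4 := Real.log_nonneg hY
  have a5 := mul_le_mul_of_nonneg_right hθ a4
  have a6 := Real.log_nonneg hR
  rw [← Real.log_le_log_iff (by positivity) (by positivity)]
  simp (disch := positivity) only [Real.log_mul, Real.log_rpow, Real.log_pow, Real.log_div,
    Real.log_sqrt] at a1 a2 a3 ⊢
  push_cast at a2 ⊢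
  linarith

/-- `YM` is additive in `γ`; `YM_gq` for `h` and `h.swap`; `VS_diff` with `μ = Y^(7/100)`, `ε' = 1/4000`, `Z = X ≤ Y`;
`dn (x n₀) ≤ dn x · dn n₀`; `∑ ‖c n₀‖ n6 n₀ dn n₀ ^ 2 ≤ C Y^(1/4000) N₀^(-1/6) · 22 N₀` (`dn_succ_pow_le (k+1)`, `n6_le`,
`card_le_of_nm_le`); `N₀ M₂ M₃ ≤ X ≤ Y^(1/2+θ)`, `R⁴ ≤ X / B ≤ Y^(2θ)` (`QH.BR_le`), so `R³ ≤ R⁴ ≤ Y^(2θ)`; exponent
`1/2000 + 2θ + (5/6)(1/2+θ) - 7/200 ≤ 5/12 - 34/1000` for `θ ≤ 1/10000`. -/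
theorem YM_gd (l : ℤ) (k : ℕ) {ε : ℝ} (hε : 0 < ε) : ∃ C : ℝ, 0 < C ∧
    ∀ (θ Y R B X N₀ M₂ M₃ M₂' M₃' t₂ t₃ : ℝ) (c : O → ℂ), QH θ ε k Y R B X N₀ M₂ M₃ M₂' M₃' c →
      ∀ x, Prim x → ‖YM (gd l c M₂ t₂ M₃ t₃ M₂' M₃' R) X x‖ ≤
        C * ((1 + |t₂|) * (1 + |t₃|)) * Y ^ (5 / 12 - 34 / 1000 : ℝ) * dn x ^ 2 := by
  classical
  obtain ⟨C₁, hC₁, hV⟩ := VS_diff l hε (ε' := 1 / 4000) (by norm_num)
  obtain ⟨C₂, hC₂, hd⟩ := dn_succ_pow_le (k + 1) (ε := 1 / 4000) (by norm_num)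
  refine ⟨22 * C₁ * C₂, by positivity, fun θ Y R B X N₀ M₂ M₃ M₂' M₃' t₂ t₃ c h x hx => ?_⟩
  have hY := h.one_le_Y
  have hR := h.one_le_R
  have hμ := h.one_le_mu
  have hY0 : 0 < Y := by linarith
  have hR0 : 0 < R := by linarith
  have hN0 : 0 < N₀ := by linarith [h.hN]
  have h2 : 0 < M₂ := by linarith [h.h2]
  have h3 : 0 < M₃ := by linarith [h.h3]
  have h2' : 0 < M₂' := by linarith [h.h2']
  have h3' : 0 < M₃' := by linarith [h.h3']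
  have hP : 0 < M₂ * M₃ := by positivity
  have hX1 : 2 * N₀ * (M₂ * M₃ * R ^ 2) ≤ X := by linarith [h.hX']
  have hMX : M₂ * M₃ * R ^ 2 ≤ X :=
    (le_mul_of_one_le_left (by positivity) (by linarith [h.hN])).trans hX1
  have hM1 : 1 ≤ M₂ * M₃ := one_le_mul_of_one_le_of_one_le (hμ.trans h.h2) (hμ.trans h.h3)
  have hNX : 2 * N₀ * (M₂ * M₃) ≤ X := (mul_le_mul_of_nonneg_left
    (le_mul_of_one_le_right hP.le (one_le_pow₀ hR)) (by positivity)).trans hX1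
  have hNY : 2 * N₀ ≤ Y := (le_mul_of_one_le_right (by positivity) hM1).trans (hNX.trans h.X_le)
  have e1 : YM (gd l c M₂ t₂ M₃ t₃ M₂' M₃' R) X x =
      YM (gq l c M₂ t₂ M₃ t₃ R) X x - YM (gq l c M₂' t₂ M₃' t₃ R) X x := by
    rw [YM, YM, YM, ← Finset.sum_sub_distrib]
    refine Finset.sum_congr rfl fun b _ => ?_
    split_ifs
    · rw [gd, sub_mul]
    · rw [sub_zero]
  obtain ⟨T, hT⟩ : ∃ T, T = (1 + |t₂|) * (1 + |t₃|) := ⟨_, rfl⟩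
  have hT0 : 0 ≤ T := by rw [hT]; positivity
  have hdx := dn_nonneg x
  obtain ⟨K, hK⟩ : ∃ K, K = C₂ * Y ^ (1 / 4000 : ℝ) * N₀ ^ (-(1 : ℝ) / 6) * (C₁ * Y ^ (1 / 4000 : ℝ) *
    R ^ 3 * dn x ^ 2 * T * (M₂ * M₃) ^ (5 / 6 : ℝ) / √(Y ^ (7 / 100 : ℝ))) := ⟨_, rfl⟩
  have hK0 : 0 ≤ K := by rw [hK]; positivity
  rw [e1, YM_gq l t₂ t₃ h.hN h2 h3 hR0 h.hX' fun n hn => (h.hs n hn).2,
    YM_gq l t₂ t₃ h.hN h2' h3' hR0 h.swap.hX' fun n hn => (h.hs n hn).2, ← Finset.sum_sub_distrib,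
    ← hT]
  refine (norm_sum_le _ _).trans ((Finset.sum_le_sum
    (g := fun n => if c n ≠ 0 then K else 0) fun n hn => ?_).trans ?_)
  · by_cases h0 : c n = 0
    · simp [h0]
    rw [if_pos h0]
    split_ifs with h1
    swap
    · rwa [sub_zero, norm_zero]
    obtain ⟨s1, s2⟩ := h.hs n h0
    have hdn := dn_nonneg n
    have b1 := hV Y _ R X M₂ M₃ M₂' M₃' t₂ t₃ (x * n) (mul_ne_zero hx.ne_zero h1.1.ne_zero) hμ h.h2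
      h.h3 h.h2' h.h3' h.hM hY h.hR (hMX.trans h.X_le) hMX
    have b2 : dn n ^ (k + 1 + 1) ≤ C₂ * Y ^ (1 / 4000 : ℝ) := (hd n).trans
      (mul_le_mul_of_nonneg_left (Real.rpow_le_rpow (nm_nonneg _) (s2.trans hNY) (by norm_num)) hC₂.le)
    have b3 := n6_le hN0 s1.le
    have b4 := dn_mul_le x n
    have b5 := h.hc n
    have b6 := dn_nonneg (x * n)
    rw [← hT] at b1
    rw [← mul_sub, norm_mul, norm_mul, Complex.norm_real, Real.norm_of_nonneg (n6_nonneg n)]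
    calc _ ≤ dn n ^ k * N₀ ^ (-(1 : ℝ) / 6) * (C₁ * Y ^ (1 / 4000 : ℝ) * R ^ 3 * (dn x * dn n) ^ 2 * T *
          (M₂ * M₃) ^ (5 / 6 : ℝ) / √(Y ^ (7 / 100 : ℝ))) := by
          refine mul_le_mul (mul_le_mul b5 b3 (n6_nonneg n) (by positivity)) (b1.trans ?_)
            (norm_nonneg _) (by positivity)
          gcongr
      _ = dn n ^ (k + 1 + 1) * N₀ ^ (-(1 : ℝ) / 6) * (C₁ * Y ^ (1 / 4000 : ℝ) * R ^ 3 * dn x ^ 2 * T *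
          (M₂ * M₃) ^ (5 / 6 : ℝ) / √(Y ^ (7 / 100 : ℝ))) := by ring
      _ ≤ K := by rw [hK]; gcongr
  · rw [← Finset.sum_filter, Finset.sum_const, nsmul_eq_mul]
    have hc := card_le_of_nm_le (X := 2 * N₀) (A := (pball X).filter fun n => c n ≠ 0) (by positivity)
      fun n hn => ⟨(mem_pball.1 (Finset.mem_filter.1 hn).1).2.ne_zero,
        (h.hs n (Finset.mem_filter.1 hn).2).2⟩
    have hn := ym_num h.hθ hY hR hN0 hP h.hB h.hX (by linarith [h.BR_le, h.two_le_X])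
      (by linarith [mul_pos hN0 hP])
    calc _ ≤ 11 * (2 * N₀) * K := mul_le_mul_of_nonneg_right hc hK0
      _ = 22 * C₁ * C₂ * T * (N₀ * (Y ^ (1 / 4000 : ℝ) * N₀ ^ (-(1 : ℝ) / 6)) * (Y ^ (1 / 4000 : ℝ) *
          R ^ 3 * (M₂ * M₃) ^ (5 / 6 : ℝ) / √(Y ^ (7 / 100 : ℝ)))) * dn x ^ 2 := by rw [hK]; ring
      _ ≤ _ := by gcongr

end Crest.Agent.R12.QB
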