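import Crest.Agent.R12.QB.Amp
import Crest.Agent.R12.QB.Ym
import Crest.Agent.R12.QB.Sep

/-!
Row 12, block QB: the bilinear form of the difference of the two centrings.
-/

set_option autoImplicit false

namespace Crest.Agent.R12.QB

open Crest.Agent.R17
open scoped ComplexConjugate

theorem corea_three_half {Y θ A : ℝ} (hY : 2 ≤ Y) (hθ : θ ≤ 1 / 10000) (hA : Y ^ (68 / 100 - θ) ≤ A) :
    3 / 2 ≤ A := by
  have h1 : (2 : ℝ) ^ (2 / 3 : ℝ) ≤ Y ^ (68 / 100 - θ) :=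
    (Real.rpow_le_rpow (by norm_num) hY (by norm_num)).trans
      (Real.rpow_le_rpow_of_exponent_le (by linarith) (by linarith))
  have h2 : ((2 : ℝ) ^ (2 / 3 : ℝ)) ^ 3 = 4 := by
    rw [← Real.rpow_natCast, ← Real.rpow_mul (by norm_num)]; norm_num
  have h3 : (3 / 2 : ℝ) ≤ (2 : ℝ) ^ (2 / 3 : ℝ) := by
    refine le_of_pow_le_pow_left₀ (n := 3) (by norm_num) (by positivity) ?_
    rw [h2]; norm_num
  linarith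

theorem corea_terms {Y θ A B X S D : ℝ} (hY : 1 ≤ Y) (h0 : 0 ≤ θ) (hθ : θ ≤ 1 / 10000) (hA0 : 0 ≤ A)
    (hX0 : 0 ≤ X) (hA : A ≤ Y ^ (68 / 100 + θ)) (hB : Y ^ (1 / 2 - θ) ≤ B) (hX : X ≤ Y ^ (1 / 2 + θ))
    (hS0 : 0 ≤ S) (hD : 0 ≤ D) (hS : S ≤ D * Y ^ (5 / 12 - 34 / 1000 : ℝ)) :
    (A * X) ^ (1 / 2000 : ℝ) * (A * X + A ^ (19 / 20 : ℝ) * B ^ (-(9 / 10) : ℝ) * X ^ 2 +
        √A * B ^ (-(1 / 3) : ℝ) * X ^ 2 + A ^ (2 / 3 : ℝ) * S ^ 2) ≤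
      (3 + D ^ 2) * Y ^ (122 / 100 : ℝ) := by
  have hY0 : 0 < Y := by linarith
  have hB0 : 0 < Y ^ (1 / 2 - θ) := by positivity
  have hAp : ∀ a : ℝ, 0 ≤ a → A ^ a ≤ Y ^ ((68 / 100 + θ) * a) := fun a ha => by
    rw [Real.rpow_mul hY0.le]; exact Real.rpow_le_rpow hA0 hA ha
  have hBp : ∀ a : ℝ, a ≤ 0 → B ^ a ≤ Y ^ ((1 / 2 - θ) * a) := fun a ha => by
    rw [Real.rpow_mul hY0.le]; exact Real.rpow_le_rpow_of_nonpos hB0 hB ha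
  have hBn : ∀ a : ℝ, 0 ≤ B ^ a := fun a => Real.rpow_nonneg (hB0.le.trans hB) a
  have hX2 : X ^ 2 ≤ Y ^ ((1 / 2 + θ) * 2) := by
    rw [Real.rpow_mul hY0.le, Real.rpow_two]; exact pow_le_pow_left₀ hX0 hX 2
  have t1 : A * X ≤ Y ^ (1219 / 1000 : ℝ) := by
    refine (mul_le_mul hA hX hX0 (by positivity)).trans ?_
    rw [← Real.rpow_add hY0]
    exact Real.rpow_le_rpow_of_exponent_le hY (by linarith)
  have t2 : A ^ (19 / 20 : ℝ) * B ^ (-(9 / 10) : ℝ) * X ^ 2 ≤ Y ^ (1219 / 1000 : ℝ) := by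
    refine (mul_le_mul (mul_le_mul (hAp _ (by norm_num)) (hBp _ (by norm_num)) (hBn _) (by positivity))
      hX2 (by positivity) (by positivity)).trans ?_
    rw [← Real.rpow_add hY0, ← Real.rpow_add hY0]
    exact Real.rpow_le_rpow_of_exponent_le hY (by linarith)
  have t3 : √A * B ^ (-(1 / 3) : ℝ) * X ^ 2 ≤ Y ^ (1219 / 1000 : ℝ) := by
    rw [Real.sqrt_eq_rpow]
    refine (mul_le_mul (mul_le_mul (hAp _ (by norm_num)) (hBp _ (by norm_num)) (hBn _) (by positivity))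
      hX2 (by positivity) (by positivity)).trans ?_
    rw [← Real.rpow_add hY0, ← Real.rpow_add hY0]
    exact Real.rpow_le_rpow_of_exponent_le hY (by linarith)
  have t4 : A ^ (2 / 3 : ℝ) * S ^ 2 ≤ D ^ 2 * Y ^ (1219 / 1000 : ℝ) := by
    have hS2 : S ^ 2 ≤ D ^ 2 * Y ^ ((5 / 12 - 34 / 1000) * 2 : ℝ) := by
      rw [Real.rpow_mul hY0.le, Real.rpow_two, ← mul_pow]; exact pow_le_pow_left₀ hS0 hS 2
    refine (mul_le_mul (hAp _ (by norm_num)) hS2 (by positivity) (by positivity)).trans ?_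
    rw [mul_left_comm, ← Real.rpow_add hY0]
    exact mul_le_mul_of_nonneg_left (Real.rpow_le_rpow_of_exponent_le hY (by linarith)) (by positivity)
  have t0 : (A * X) ^ (1 / 2000 : ℝ) ≤ Y ^ (1 / 1000 : ℝ) := by
    refine (Real.rpow_le_rpow (by positivity) t1 (by norm_num)).trans ?_
    rw [← Real.rpow_mul hY0.le]
    exact Real.rpow_le_rpow_of_exponent_le hY (by norm_num)
  have e : Y ^ (122 / 100 : ℝ) = Y ^ (1 / 1000 : ℝ) * Y ^ (1219 / 1000 : ℝ) := by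
    rw [← Real.rpow_add hY0]; norm_num
  have hb := hBn (-(9 / 10))
  have hb' := hBn (-(1 / 3))
  rw [e, mul_left_comm]
  exact mul_le_mul t0 (by linarith) (by positivity) (by positivity)

/-- From `hq l` get `E, η, δ`; answer `E + 4`, `θ₀ = min η (1/10000)`, `δ' = min δ (6/1000)`.  `hq` for `(M₂, M₃)` and for `(M₂', M₃')`
(`QH.swap`), `rowBd_sub`, `OD_two_add`, `qb_EN` (`k + 3`, `ε = 1/2000`, `QH.supp_gd`, `QH.dv_gd`) with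
`S = C (1+|t₂|)(1+|t₃|) Y^(5/12 - 34/1000)` (`YM_gd`); `S² ≤ C² T⁴ Y^(5/6 - 68/1000)`, `T = 1 + |t₂| + |t₃|`.
With `A' ≤ Y^(68/100+θ)`, `X ≤ Y^(1/2+θ)`, `B ≥ Y^(1/2-θ)` the four terms are at most `Y^(1219/1000)`
(`1.18`, `1.196`, `1.1733`, `1.21867` up to `4θ`), `(A' X)^(1/2000) ≤ Y^(1/1000)`, and `122/100 ≤ 7/6 + 6/100 - 6/1000`.
`3/2 ≤ 2^(2/3) ≤ Y^(68/100 - θ) ≤ A'`.  Replace the constant of `hq` by its absolute value. -/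
theorem gd_EN (h1 : StPOd) (h2 : StT3) (hq : StQR) (l : ℤ) : ∃ (E : ℕ) (θ₀ δ : ℝ), 0 < θ₀ ∧ 0 < δ ∧
    ∀ (ε : ℝ) (k : ℕ), 0 < ε → ∃ C : ℝ, 0 < C ∧
    ∀ (θ Y R A' B X N₀ M₂ M₃ M₂' M₃' t₂ t₃ : ℝ) (c : O → ℂ), 0 ≤ θ → θ ≤ θ₀ →
      QH θ ε k Y R B X N₀ M₂ M₃ M₂' M₃' c → Y ^ (68 / 100 - θ) ≤ A' → A' ≤ Y ^ (68 / 100 + θ) →
      EN 1 A' (gd l c M₂ t₂ M₃ t₃ M₂' M₃' R) X ≤
        C * (1 + |t₂| + |t₃|) ^ E * Y ^ (7 / 6 + 6 / 100 - δ) := by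
  obtain ⟨E, η, δ, hη, hδ, hq⟩ := hq l
  refine ⟨E + 4, min η (1 / 10000), min δ (6 / 1000), lt_min hη (by norm_num), lt_min hδ (by norm_num),
    fun ε k hε => ?_⟩
  obtain ⟨Cq, ν, hq⟩ := hq ε k hε
  obtain ⟨Ce, hCe, he⟩ := qb_EN h1 h2 ν (k + 3) (ε := 1 / 2000) (by norm_num)
  obtain ⟨Cy, hCy, hy⟩ := YM_gd l k hε
  refine ⟨Ce * (3 + Cy ^ 2 + 4 * |Cq|), by positivity, ?_⟩
  intro θ Y R A' B X N₀ M₂ M₃ M₂' M₃' t₂ t₃ c h0 hθ H hA1 hA2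
  have hθη : θ ≤ η := hθ.trans (min_le_left _ _)
  have hY1 := H.one_le_Y
  have hY0 : 0 < Y := by linarith
  have hA1' : Y ^ (68 / 100 - η) ≤ A' :=
    (Real.rpow_le_rpow_of_exponent_le hY1 (by linarith)).trans hA1
  have hA2' : A' ≤ Y ^ (68 / 100 + η) :=
    hA2.trans (Real.rpow_le_rpow_of_exponent_le hY1 (by linarith))
  have hB' : Y ^ (1 / 2 - η) ≤ B := (Real.rpow_le_rpow_of_exponent_le hY1 (by linarith)).trans H.hB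
  have hX' : X ≤ Y ^ (1 / 2 + η) := H.hX.trans (Real.rpow_le_rpow_of_exponent_le hY1 (by linarith))
  obtain ⟨φ₁, φ₂, p1, p2, hr, ho⟩ := hq Y R A' B X N₀ M₂ M₃ t₂ t₃ c H.hY H.hR hA1' hA2' hB' hX' H.hN
    (H.one_le_mu.trans H.h2) (H.one_le_mu.trans H.h3) H.h33 H.hB' H.hX' H.hc H.hs
  obtain ⟨ψ₁, ψ₂, q1, q2, hr', ho'⟩ := hq Y R A' B X N₀ M₂' M₃' t₂ t₃ c H.hY H.hR hA1' hA2' hB' hX' H.hN
    (H.one_le_mu.trans H.h2') (H.one_le_mu.trans H.h3') H.swap.h33 H.swap.hB' H.swap.hX' H.hc H.hs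
  have hA32 := corea_three_half H.hY H.hθ hA1
  have a2 := abs_nonneg t₂
  have a3 := abs_nonneg t₃
  have key := he A' B X _ _ _ _ hA32 (by linarith [H.one_le_B]) (by linarith [H.two_le_X]) (by positivity)
    (H.supp_gd l t₂ t₃) (H.dv_gd l t₂ t₃) (hy θ Y R B X N₀ M₂ M₃ M₂' M₃' t₂ t₃ c H)
    (fun n => by have := p1 n; have := q1 n; positivity)
    (fun n => by have := p2 n; have := q2 n; positivity) (rowBd_sub hr hr')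
  rw [OD_two_add] at key
  have hT : (1 + |t₂|) * (1 + |t₃|) ≤ (1 + |t₂| + |t₃|) ^ 2 := by nlinarith
  have ht := corea_terms (S := Cy * ((1 + |t₂|) * (1 + |t₃|)) * Y ^ (5 / 12 - 34 / 1000 : ℝ))
    (D := Cy * (1 + |t₂| + |t₃|) ^ 2) hY1 h0 H.hθ (by linarith) (by linarith [H.two_le_X]) hA2 H.hB H.hX
    (by positivity) (by positivity) (by gcongr)
  have hT1 : 1 ≤ 1 + |t₂| + |t₃| := by linarith
  generalize 1 + |t₂| + |t₃| = T at *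
  have y1 : Y ^ (122 / 100 : ℝ) ≤ Y ^ (7 / 6 + 6 / 100 - min δ (6 / 1000)) :=
    Real.rpow_le_rpow_of_exponent_le hY1 (by linarith [min_le_right δ (6 / 1000)])
  have y2 : Y ^ (7 / 6 + 6 / 100 - δ) ≤ Y ^ (7 / 6 + 6 / 100 - min δ (6 / 1000)) :=
    Real.rpow_le_rpow_of_exponent_le hY1 (by linarith [min_le_left δ (6 / 1000)])
  have z1 : 1 ≤ T ^ (E + 4) := one_le_pow₀ hT1
  have z2 : T ^ 4 ≤ T ^ (E + 4) := pow_le_pow_right₀ hT1 (by omega)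
  have z3 : T ^ E ≤ T ^ (E + 4) := pow_le_pow_right₀ hT1 (by omega)
  have w1 : Cq * T ^ E * Y ^ (7 / 6 + 6 / 100 - δ) ≤
      |Cq| * T ^ (E + 4) * Y ^ (7 / 6 + 6 / 100 - min δ (6 / 1000)) :=
    calc Cq * T ^ E * Y ^ (7 / 6 + 6 / 100 - δ) ≤ |Cq| * T ^ E * Y ^ (7 / 6 + 6 / 100 - δ) := by
          gcongr; exact le_abs_self _
      _ ≤ _ := by gcongr
  have w2 : (3 + (Cy * T ^ 2) ^ 2) * Y ^ (122 / 100 : ℝ) ≤
      (3 + Cy ^ 2) * T ^ (E + 4) * Y ^ (7 / 6 + 6 / 100 - min δ (6 / 1000)) := by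
    refine mul_le_mul ?_ y1 (by positivity) (by positivity)
    have : (Cy * T ^ 2) ^ 2 ≤ Cy ^ 2 * T ^ (E + 4) :=
      calc (Cy * T ^ 2) ^ 2 = Cy ^ 2 * T ^ 4 := by ring
        _ ≤ _ := by gcongr
    linarith
  refine key.trans ?_
  rw [mul_assoc Ce, mul_assoc Ce]
  refine mul_le_mul_of_nonneg_left ?_ hCe.le
  linarith

theorem coreb_second {A X U : ℝ} (hA : 0 ≤ A) (hX : 0 ≤ X) (hU : 1 ≤ U) (hAU : A ≤ U) (hXU : X ≤ U) :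
    (A + (A * X) ^ (2 / 3 : ℝ) + A ^ (1 / 3 : ℝ) * X) * X ≤ 3 * U ^ (7 / 3 : ℝ) := by
  have hU0 : 0 < U := by linarith
  have h1 : A ≤ U ^ (4 / 3 : ℝ) := by
    refine hAU.trans ?_
    calc U = U ^ (1 : ℝ) := (Real.rpow_one U).symm
      _ ≤ U ^ (4 / 3 : ℝ) := Real.rpow_le_rpow_of_exponent_le hU (by norm_num)
  have h2 : (A * X) ^ (2 / 3 : ℝ) ≤ U ^ (4 / 3 : ℝ) := by
    calc (A * X) ^ (2 / 3 : ℝ) ≤ (U ^ (2 : ℝ)) ^ (2 / 3 : ℝ) := by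
          refine Real.rpow_le_rpow (mul_nonneg hA hX) ?_ (by norm_num)
          rw [Real.rpow_two, sq]
          exact mul_le_mul hAU hXU hX hU0.le
      _ = U ^ (4 / 3 : ℝ) := by rw [← Real.rpow_mul hU0.le]; norm_num
  have h3 : A ^ (1 / 3 : ℝ) * X ≤ U ^ (4 / 3 : ℝ) := by
    calc A ^ (1 / 3 : ℝ) * X ≤ U ^ (1 / 3 : ℝ) * U :=
          mul_le_mul (Real.rpow_le_rpow hA hAU (by norm_num)) hXU hX (Real.rpow_nonneg hU0.le _)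
      _ = U ^ (4 / 3 : ℝ) := by rw [← Real.rpow_add_one hU0.ne']; norm_num
  have h4 : U ^ (4 / 3 : ℝ) * U = U ^ (7 / 3 : ℝ) := by
    rw [← Real.rpow_add_one hU0.ne']; norm_num
  have h5 : 0 ≤ U ^ (4 / 3 : ℝ) := Real.rpow_nonneg hU0.le _
  calc (A + (A * X) ^ (2 / 3 : ℝ) + A ^ (1 / 3 : ℝ) * X) * X ≤ (3 * U ^ (4 / 3 : ℝ)) * U :=
        mul_le_mul (by linarith) hXU hX (by linarith)
    _ = 3 * U ^ (7 / 3 : ℝ) := by rw [mul_assoc, h4]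

/-- `rows_amp` with `Z = Y`, `P = Y^(6/100)`, `ε = δ/2`; `A' = A P³ ∈ Y^(68/100 ± θ)`.  `Supp (gd …) 1 X` from `QH.supp_gd`,
`QH.one_le_B`; `QH.dv_gd`, `QH.two_le_X`, `QH.X_le`.  `gd_EN`; the second term is at most
`3 Y^(7/6 + 3θ) ≤ 3 Y^(7/6 + 6/100 - δ)` once `δ ≤ 5/100` (replace `δ` by `min δ (5/100)`).  Answer `δ/2`. -/
theorem gd_rows (h1 : StPOd) (h2 : StT3) (h3 : StL) (hq : StQR) (l : ℤ) : ∃ (E : ℕ) (θ₀ δ : ℝ), 0 < θ₀ ∧ 0 < δ ∧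
    ∀ (ε : ℝ) (k : ℕ), 0 < ε → ∃ C : ℝ, 0 < C ∧
    ∀ (θ Y R A B X N₀ M₂ M₃ M₂' M₃' t₂ t₃ : ℝ) (c : O → ℂ) (S : Finset O), 0 ≤ θ → θ ≤ θ₀ →
      QH θ ε k Y R B X N₀ M₂ M₃ M₂' M₃' c → Y ^ (1 / 2 - θ) ≤ A → A ≤ Y ^ (1 / 2 + θ) →
      (∀ x ∈ S, Prim x ∧ A ≤ nm x ∧ nm x ≤ 2 * A) →
      ∑ x ∈ S, ‖XG (gd l c M₂ t₂ M₃ t₃ M₂' M₃' R) X x‖ ^ 2 ≤
        C * (1 + |t₂| + |t₃|) ^ E * Y ^ (7 / 6 - δ) := by
  obtain ⟨E, θ₀, δ, hθ₀, hδ, hEN⟩ := gd_EN h1 h2 hq l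
  obtain ⟨d, hd0, hdδ, hd5⟩ : ∃ d : ℝ, 0 < d ∧ d ≤ δ ∧ d ≤ 5 / 100 :=
    ⟨min δ (5 / 100), lt_min hδ (by norm_num), min_le_left _ _, min_le_right _ _⟩
  refine ⟨E, θ₀, d / 2, hθ₀, by linarith, fun ε k hε => ?_⟩
  obtain ⟨C₁, hC₁, hEN⟩ := hEN ε k hε
  obtain ⟨C₂, hC₂, hamp⟩ := rows_amp h3 (k + 3) (ε := d / 2) (by linarith)
  refine ⟨C₂ * (C₁ + 3), by positivity, ?_⟩
  intro θ Y R A B X N₀ M₂ M₃ M₂' M₃' t₂ t₃ c S hθ hθθ hQ hA1 hA2 hS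
  have hY1 := hQ.one_le_Y
  have hY0 : 0 < Y := by linarith
  have hθ' := hQ.hθ
  have hA : 1 ≤ A := (Real.one_le_rpow hY1 (by linarith)).trans hA1
  have hYY : ∀ e : ℝ, e ≤ 1 → Y ^ e ≤ Y := fun e he => by
    calc Y ^ e ≤ Y ^ (1 : ℝ) := Real.rpow_le_rpow_of_exponent_le hY1 he
      _ = Y := Real.rpow_one Y
  have hP3 : (Y ^ (6 / 100 : ℝ)) ^ 3 = Y ^ (18 / 100 : ℝ) := by
    rw [← Real.rpow_natCast, ← Real.rpow_mul hY0.le]; norm_num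
  have hP30 : 0 < Y ^ (18 / 100 : ℝ) := Real.rpow_pos_of_pos hY0 _
  have hsupp : Supp (gd l c M₂ t₂ M₃ t₃ M₂' M₃' R) 1 X := fun b hb =>
    ⟨(hQ.supp_gd l t₂ t₃ b hb).1, hQ.one_le_B.trans_lt (hQ.supp_gd l t₂ t₃ b hb).2.1,
      (hQ.supp_gd l t₂ t₃ b hb).2.2⟩
  have h4 := hamp Y A (Y ^ (6 / 100 : ℝ)) X _ S hA (hA2.trans (hYY _ (by linarith)))
    (Real.one_le_rpow hY1 (by norm_num)) (hYY _ (by norm_num)) hQ.two_le_X hQ.X_le hsupp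
    (hQ.dv_gd l t₂ t₃) hS
  have h5 := hEN θ Y R (A * (Y ^ (6 / 100 : ℝ)) ^ 3) B X N₀ M₂ M₃ M₂' M₃' t₂ t₃ c hθ hθθ hQ
    (by
      rw [hP3, show (68 / 100 - θ : ℝ) = (1 / 2 - θ) + 18 / 100 by ring, Real.rpow_add hY0]
      exact mul_le_mul_of_nonneg_right hA1 hP30.le)
    (by
      rw [hP3, show (68 / 100 + θ : ℝ) = (1 / 2 + θ) + 18 / 100 by ring, Real.rpow_add hY0]
      exact mul_le_mul_of_nonneg_right hA2 hP30.le)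
  have hT : 1 ≤ (1 + |t₂| + |t₃|) ^ E :=
    one_le_pow₀ (by linarith [abs_nonneg t₂, abs_nonneg t₃])
  have h6 := coreb_second (by linarith : 0 ≤ A) (by linarith [hQ.two_le_X] : 0 ≤ X)
    (Real.one_le_rpow hY1 (by linarith : (0 : ℝ) ≤ 1 / 2 + θ)) hA2 hQ.hX
  rw [← Real.rpow_mul hY0.le] at h6
  have h7 : Y ^ ((1 / 2 + θ) * (7 / 3)) ≤ Y ^ (7 / 6 + 6 / 100 - d) :=
    Real.rpow_le_rpow_of_exponent_le hY1 (by linarith)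
  have h8 : Y ^ (7 / 6 + 6 / 100 - δ) ≤ Y ^ (7 / 6 + 6 / 100 - d) :=
    Real.rpow_le_rpow_of_exponent_le hY1 (by linarith)
  have h9 : 0 < Y ^ (7 / 6 + 6 / 100 - d) := Real.rpow_pos_of_pos hY0 _
  have h10 : Y ^ (d / 2) / Y ^ (6 / 100 : ℝ) * Y ^ (7 / 6 + 6 / 100 - d) = Y ^ (7 / 6 - d / 2) := by
    rw [← Real.rpow_sub hY0, ← Real.rpow_add hY0]
    congr 1
    ring
  have h11 : EN 1 (A * (Y ^ (6 / 100 : ℝ)) ^ 3) (gd l c M₂ t₂ M₃ t₃ M₂' M₃' R) X +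
      (A + (A * X) ^ (2 / 3 : ℝ) + A ^ (1 / 3 : ℝ) * X) * X ≤
      (C₁ + 3) * (1 + |t₂| + |t₃|) ^ E * Y ^ (7 / 6 + 6 / 100 - d) := by
    have h12 : C₁ * (1 + |t₂| + |t₃|) ^ E * Y ^ (7 / 6 + 6 / 100 - δ) ≤
        C₁ * (1 + |t₂| + |t₃|) ^ E * Y ^ (7 / 6 + 6 / 100 - d) :=
      mul_le_mul_of_nonneg_left h8 (by positivity)
    have h13 : Y ^ (7 / 6 + 6 / 100 - d) ≤ (1 + |t₂| + |t₃|) ^ E * Y ^ (7 / 6 + 6 / 100 - d) :=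
      le_mul_of_one_le_left h9.le hT
    linarith
  refine h4.trans ((mul_le_mul_of_nonneg_left h11 (by positivity)).trans (le_of_eq ?_))
  rw [← h10]
  ring

/-- `sum_f0'` for the `x` with `α x ≠ 0`, `norm_GG`, Cauchy–Schwarz (`bta_cs` with `w = 1`, `S = (ball (2A)).filter (α · ≠ 0)`) -/
theorem core_cs {A B X D S : ℝ} {α γ : O → ℂ} (hα : Supp α A (2 * A)) (hγ : Supp γ B X) (hS : 0 ≤ S)
    (hD : ∀ T : Finset O, (∀ x ∈ T, Prim x ∧ A ≤ nm x ∧ nm x ≤ 2 * A) → ∑ x ∈ T, ‖XG γ X x‖ ^ 2 ≤ D)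
    (hY : ∀ x, Prim x → ‖YM γ X x‖ ≤ S * dn x ^ 2) :
    ‖∑ x ∈ ball (2 * A), ∑ b ∈ ball X, α x * γ b * f0 (x * b)‖ ≤
      √(N2 α (2 * A)) * √D + 2 * S * ∑ x ∈ ball (2 * A), ‖α x‖ * n6 x * dn x ^ 2 := by
  classical
  have h1 : ∀ x ∈ ball (2 * A), ‖∑ b ∈ ball X, α x * γ b * f0 (x * b)‖ ≤
      ‖α x‖ * 1 * ‖XG γ X x‖ + 2 * S * (‖α x‖ * n6 x * dn x ^ 2) := by
    intro x _
    by_cases hx : α x = 0
    · simp [hx]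
    have hp := (hα x hx).1
    have h2 : ∑ b ∈ ball X, α x * γ b * f0 (x * b) =
        α x * (GG x * XG γ X x - ((cP * n6 x : ℝ) : ℂ) * YM γ X x) := by
      rw [← sum_f0' hγ hp, Finset.mul_sum]
      exact Finset.sum_congr rfl fun b _ => mul_assoc _ _ _
    have h3 : ‖GG x * XG γ X x - ((cP * n6 x : ℝ) : ℂ) * YM γ X x‖ ≤
        ‖XG γ X x‖ + 2 * n6 x * (S * dn x ^ 2) := by
      refine (norm_sub_le _ _).trans ?_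
      rw [norm_mul, norm_mul, norm_GG hp, one_mul, Complex.norm_real,
        Real.norm_of_nonneg (mul_nonneg cP_pos.le (n6_nonneg x))]
      have h4 : cP * n6 x * ‖YM γ X x‖ ≤ 2 * n6 x * (S * dn x ^ 2) :=
        mul_le_mul (mul_le_mul_of_nonneg_right cP_le (n6_nonneg x)) (hY x hp.1) (norm_nonneg _)
          (mul_nonneg zero_le_two (n6_nonneg x))
      linarith
    rw [h2, norm_mul]
    refine (mul_le_mul_of_nonneg_left h3 (norm_nonneg _)).trans (le_of_eq ?_)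
    ring
  refine (norm_sum_le _ _).trans ((Finset.sum_le_sum h1).trans ?_)
  rw [Finset.sum_add_distrib, ← Finset.mul_sum]
  have h5 := bta_cs (α := α) (T := ball (2 * A)) (S := (ball (2 * A)).filter fun x => α x ≠ 0)
    (fun _ => 1) (fun x => ‖XG γ X x‖) (fun _ => zero_le_one)
    (fun x hx => Finset.mem_filter.2 ⟨mem_ball.2 (hα x hx).2.2, hx⟩)
  have h6 := hD ((ball (2 * A)).filter fun x => α x ≠ 0) fun x hx =>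
    ⟨(hα x (Finset.mem_filter.1 hx).2).1.1, (hα x (Finset.mem_filter.1 hx).2).2.1.le,
      (hα x (Finset.mem_filter.1 hx).2).2.2⟩
  simp only [mul_one, one_mul] at h5 ⊢
  have h7 := mul_le_mul_of_nonneg_left (Real.sqrt_le_sqrt h6)
    (Real.sqrt_nonneg (∑ x ∈ ball (2 * A), ‖α x‖ ^ 2))
  unfold N2
  linarith

/-- `core_cs`, `gd_rows`, `YM_gd`, `en_sq_le` (`j = 0`), `en_abs_le` (`j = 2`).  With `E, θ₀, δ` from `gd_rows` answer `E + 2`,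
`min θ₀ (δ/4)`, `min (δ/4) (3/100)`: `√(Y^(δ/4) Y^(1/2+θ)) · √(T^E Y^(7/6-δ)) ≤ T^E Y^(5/6 - δ/4)`; the model term is
`T² Y^(5/12 - 34/1000) · Y^(1/1000) A^(5/6) ≤ T² Y^(5/6 - 3/100)`. -/
theorem gd_core (h1 : StPOd) (h2 : StT3) (h3 : StL) (hq : StQR) (l : ℤ) : ∃ (E : ℕ) (θ₀ δ : ℝ), 0 < θ₀ ∧ 0 < δ ∧
    ∀ (ε : ℝ) (k : ℕ), 0 < ε → ∃ C : ℝ, 0 < C ∧
    ∀ (θ Y R A B X N₀ M₂ M₃ M₂' M₃' t₂ t₃ : ℝ) (α c : O → ℂ), 0 ≤ θ → θ ≤ θ₀ →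
      QH θ ε k Y R B X N₀ M₂ M₃ M₂' M₃' c → Y ^ (1 / 2 - θ) ≤ A → A ≤ Y ^ (1 / 2 + θ) →
      Supp α A (2 * A) → Dv k α →
      ‖∑ x ∈ ball (2 * A), ∑ b ∈ ball X, α x * gd l c M₂ t₂ M₃ t₃ M₂' M₃' R b * f0 (x * b)‖ ≤
        C * (1 + |t₂| + |t₃|) ^ E * Y ^ (5 / 6 - δ) := by
  obtain ⟨E, θ₀, δ, hθ₀, hδ, h⟩ := gd_rows h1 h2 h3 hq l
  refine ⟨E + 2, min θ₀ (δ / 4), min (δ / 4) (3 / 100), by positivity, by positivity, fun ε k hε => ?_⟩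
  obtain ⟨C₁, hC₁, k₁⟩ := en_sq_le k 0 (ε := δ / 8) (by positivity)
  obtain ⟨C₂, hC₂, k₂⟩ := h ε k hε
  obtain ⟨C₃, hC₃, k₃⟩ := YM_gd l k hε
  obtain ⟨C₄, hC₄, k₄⟩ := en_abs_le k 2 (ε := 1 / 2000) (by norm_num)
  refine ⟨√(2 * C₁) * √C₂ + 4 * C₃ * C₄, by positivity,
    fun θ Y R A B X N₀ M₂ M₃ M₂' M₃' t₂ t₃ α c h0 hθ H hA hA' hα hD => ?_⟩
  have hY1 := H.one_le_Y
  have hY0 : 0 < Y := by linarith
  have hle : ∀ {s t : ℝ}, s ≤ t → Y ^ s ≤ Y ^ t := fun h => Real.rpow_le_rpow_of_exponent_le hY1 h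
  have hθ1 := H.hθ
  have hθ2 : θ ≤ δ / 4 := hθ.trans (min_le_right _ _)
  have hA1 : 1 ≤ A := (Real.one_le_rpow hY1 (by linarith)).trans hA
  have hAY : A ≤ Y := hA'.trans ((hle (by linarith)).trans_eq (Real.rpow_one Y))
  have h2A : ∀ e : ℝ, 0 ≤ e → (2 * A) ^ e ≤ Y ^ (2 * e) := fun e he => by
    rw [Real.rpow_mul hY0.le, Real.rpow_two, sq]
    exact Real.rpow_le_rpow (by positivity) (mul_le_mul H.hY hAY (by positivity) hY0.le) he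
  set T := 1 + |t₂| + |t₃| with hT
  have a2 := abs_nonneg t₂
  have a3 := abs_nonneg t₃
  have hT1 : 1 ≤ T := by linarith
  refine (core_cs hα (H.supp_gd l t₂ t₃) (by positivity)
    (fun S hS => k₂ θ Y R A B X N₀ M₂ M₃ M₂' M₃' t₂ t₃ c S h0 (hθ.trans (min_le_left _ _)) H hA hA' hS)
    (k₃ θ Y R B X N₀ M₂ M₃ M₂' M₃' t₂ t₃ c H)).trans ?_
  have s1 : √(N2 α (2 * A)) ≤ √(2 * C₁) * Y ^ (1 / 4 + δ / 4) := by
    refine Real.sqrt_le_iff.2 ⟨by positivity, ?_⟩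
    have b1 := k₁ α A (2 * A) (by linarith) hα hD
    simp only [pow_zero, mul_one] at b1
    have b2 := h2A (δ / 8) (by positivity)
    calc N2 α (2 * A) ≤ C₁ * (2 * A) ^ (δ / 8) * (2 * A) := b1
      _ ≤ C₁ * Y ^ (2 * (δ / 8)) * (2 * Y ^ (1 / 2 + θ)) := by gcongr
      _ = 2 * C₁ * Y ^ (2 * (δ / 8) + (1 / 2 + θ)) := by rw [Real.rpow_add hY0 (2 * (δ / 8))]; ring
      _ ≤ 2 * C₁ * Y ^ ((1 / 4 + δ / 4) * (2 : ℕ)) :=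
          mul_le_mul_of_nonneg_left (hle (by push_cast; linarith)) (by positivity)
      _ = _ := by rw [mul_pow, Real.sq_sqrt (by positivity), Real.rpow_mul_natCast hY0.le]
  have s2 : √(C₂ * T ^ E * Y ^ (7 / 6 - δ)) ≤ √C₂ * T ^ (E + 2) * Y ^ (7 / 12 - δ / 2) := by
    refine Real.sqrt_le_iff.2 ⟨by positivity, ?_⟩
    rw [mul_pow, mul_pow, Real.sq_sqrt hC₂.le, ← Real.rpow_mul_natCast hY0.le, ← pow_mul]
    refine mul_le_mul (mul_le_mul_of_nonneg_left (pow_le_pow_right₀ hT1 (by omega)) hC₂.le)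
      (hle (by push_cast; linarith)) (by positivity) (by positivity)
  have s3 : ∑ x ∈ ball (2 * A), ‖α x‖ * n6 x * dn x ^ 2 ≤ 2 * C₄ * Y ^ (5 / 12 + 4 / 1000 : ℝ) := by
    have b2 := h2A (1 / 2000) (by norm_num)
    have b3 : A ^ (-(1 : ℝ) / 6) * A ≤ Y ^ ((1 / 2 + θ) * (5 / 6)) := by
      rw [← Real.rpow_add_one (by positivity), Real.rpow_mul hY0.le]
      norm_num
      exact Real.rpow_le_rpow (by positivity) (by simpa using hA') (by norm_num)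
    calc _ ≤ C₄ * (2 * A) ^ (1 / 2000 : ℝ) * (A ^ (-(1 : ℝ) / 6) * (2 * A)) :=
          k₄ α A (2 * A) (by linarith) (by linarith) hα hD
      _ = 2 * C₄ * ((2 * A) ^ (1 / 2000 : ℝ) * (A ^ (-(1 : ℝ) / 6) * A)) := by ring
      _ ≤ 2 * C₄ * (Y ^ (2 * (1 / 2000) : ℝ) * Y ^ ((1 / 2 + θ) * (5 / 6))) := by gcongr
      _ ≤ _ := by
          rw [← Real.rpow_add hY0]
          exact mul_le_mul_of_nonneg_left (hle (by linarith)) (by positivity)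
  have s4 : (1 + |t₂|) * (1 + |t₃|) ≤ T ^ (E + 2) :=
    calc _ ≤ T * T := mul_le_mul (by linarith) (by linarith) (by positivity) (by positivity)
      _ = T ^ 2 := (sq T).symm
      _ ≤ _ := pow_le_pow_right₀ hT1 (by omega)
  have m1 := min_le_left (δ / 4) (3 / 100)
  have m2 := min_le_right (δ / 4) (3 / 100)
  calc _ ≤ √(2 * C₁) * Y ^ (1 / 4 + δ / 4) * (√C₂ * T ^ (E + 2) * Y ^ (7 / 12 - δ / 2)) +
        2 * (C₃ * T ^ (E + 2) * Y ^ (5 / 12 - 34 / 1000 : ℝ)) * (2 * C₄ * Y ^ (5 / 12 + 4 / 1000 : ℝ)) := by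
        have : 0 ≤ ∑ x ∈ ball (2 * A), ‖α x‖ * n6 x * dn x ^ 2 :=
          Finset.sum_nonneg fun x _ => mul_nonneg (mul_nonneg (norm_nonneg _) (n6_nonneg x)) (sq_nonneg _)
        gcongr
    _ = √(2 * C₁) * √C₂ * T ^ (E + 2) * (Y ^ (1 / 4 + δ / 4) * Y ^ (7 / 12 - δ / 2)) +
        4 * C₃ * C₄ * T ^ (E + 2) * (Y ^ (5 / 12 - 34 / 1000 : ℝ) * Y ^ (5 / 12 + 4 / 1000 : ℝ)) := by ring
    _ ≤ √(2 * C₁) * √C₂ * T ^ (E + 2) * Y ^ (5 / 6 - min (δ / 4) (3 / 100)) +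
        4 * C₃ * C₄ * T ^ (E + 2) * Y ^ (5 / 6 - min (δ / 4) (3 / 100)) := by
        rw [← Real.rpow_add hY0, ← Real.rpow_add hY0]
        exact add_le_add (mul_le_mul_of_nonneg_left (hle (by linarith)) (by positivity))
          (mul_le_mul_of_nonneg_left (hle (by linarith)) (by positivity))
    _ = _ := by ring

/-- `Bil_sep (E)` with `D = C 2^E T^E Y^(5/6-δ)`: `QH.gd_mul_tw`, `norm_tw`, `gd_core` for the twisted `α`, `c` (`QH.tw`, `Supp.mul`,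
`Dv.mul`), `1 + |t₂ - τ| + |t₃ - τ| ≤ 2 T (1 + |τ|)`. -/
theorem gd_Bil (h1 : StPOd) (h2 : StT3) (h3 : StL) (hq : StQR) (l : ℤ) : ∃ (E : ℕ) (θ₀ δ : ℝ), 0 < θ₀ ∧ 0 < δ ∧
    ∀ (ε : ℝ) (k : ℕ), 0 < ε → ∃ C : ℝ, 0 < C ∧
    ∀ (θ Y a R A B X N₀ M₂ M₃ M₂' M₃' t₂ t₃ : ℝ) (α c : O → ℂ), 0 ≤ θ → θ ≤ θ₀ → 0 < a → a ≤ 1 →
      QH θ ε k Y R B X N₀ M₂ M₃ M₂' M₃' c → Y ^ (1 / 2 - θ) ≤ A → A ≤ Y ^ (1 / 2 + θ) →
      Supp α A (2 * A) → Dv k α →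
      ‖Bil a Y α (gd l c M₂ t₂ M₃ t₃ M₂' M₃' R) (2 * A) X‖ ≤
        C * (1 + |t₂| + |t₃|) ^ E * Y ^ (5 / 6 - δ) * (a ^ E)⁻¹ := by
  obtain ⟨E, θ₀, δ, hθ₀, hδ, h⟩ := gd_core h1 h2 h3 hq l
  refine ⟨E, θ₀, δ, hθ₀, hδ, fun ε k hε => ?_⟩
  obtain ⟨C₁, hC₁, k₁⟩ := h ε k hε
  obtain ⟨C₂, hC₂, k₂⟩ := Bil_sep E
  refine ⟨C₂ * (C₁ * 2 ^ E), by positivity,
    fun θ Y a R A B X N₀ M₂ M₃ M₂' M₃' t₂ t₃ α c h0 hθ ha ha1 H hA hA' hα hD => ?_⟩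
  have hY0 : 0 < Y := by linarith [H.hY]
  refine (k₂ a Y (2 * A) X (C₁ * 2 ^ E * (1 + |t₂| + |t₃|) ^ E * Y ^ (5 / 6 - δ)) α _ ha ha1 hY0
    (by positivity) fun τ => ?_).trans_eq (by ring)
  have e : ∑ x ∈ ball (2 * A), ∑ b ∈ ball X,
      α x * tw τ (nm x) * (gd l c M₂ t₂ M₃ t₃ M₂' M₃' R b * tw τ (nm b)) * f0 (x * b) =
      tw τ (M₂ * M₃) * ∑ x ∈ ball (2 * A), ∑ b ∈ ball X, α x * tw τ (nm x) *
        gd l (fun n => c n * tw τ (nm n)) M₂ (t₂ - τ) M₃ (t₃ - τ) M₂' M₃' R b * f0 (x * b) := by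
    simp only [Finset.mul_sum]
    refine Finset.sum_congr rfl fun x _ => Finset.sum_congr rfl fun b _ => ?_
    rw [H.gd_mul_tw]
    ring
  rw [e, norm_mul, norm_tw, one_mul]
  refine (k₁ θ Y R A B X N₀ M₂ M₃ M₂' M₃' (t₂ - τ) (t₃ - τ) (fun x => α x * tw τ (nm x)) _ h0 hθ (H.tw τ)
    hA hA' (hα.mul _) (hD.mul fun _ => (norm_tw _ _).le)).trans ?_
  have a2 := abs_nonneg t₂
  have a3 := abs_nonneg t₃
  have a4 := abs_nonneg τ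
  have b : 1 + |t₂ - τ| + |t₃ - τ| ≤ 2 * (1 + |t₂| + |t₃|) * (1 + |τ|) := by
    nlinarith [abs_sub t₂ τ, abs_sub t₃ τ, mul_nonneg a2 a4, mul_nonneg a3 a4]
  calc _ ≤ C₁ * (2 * (1 + |t₂| + |t₃|) * (1 + |τ|)) ^ E * Y ^ (5 / 6 - δ) := by gcongr
    _ = _ := by rw [mul_pow, mul_pow]; ring

end Crest.Agent.R12.QB
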