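import Crest.Agent.R12.QB.Defs

/-!
Row 12, block QB: convolution, the cut plain variable, the sequences `gq`, `gd`, twists.
-/

set_option autoImplicit false

namespace Crest.Agent.R12.QB

open Crest.Agent.R17
open scoped ComplexConjugate

theorem cv_ne_zero {f g : O → ℂ} {b : O} (h : cv f g b ≠ 0) :
    ∃ n m, Prim n ∧ Prim m ∧ n * m = b ∧ f n ≠ 0 ∧ g m ≠ 0 := by
  obtain ⟨p, hp, h0⟩ := Finset.exists_ne_zero_of_sum_ne_zero h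
  obtain ⟨h1, h2, h3⟩ := mem_anti.1 hp
  exact ⟨p.1, p.2, h1, h2, h3, left_ne_zero_of_mul h0, right_ne_zero_of_mul h0⟩

theorem cv_eq_zero {f g : O → ℂ} {b : O} (hb : ¬ Prim b) : cv f g b = 0 := by
  by_contra h
  obtain ⟨n, m, hn, hm, e, -⟩ := cv_ne_zero h
  exact hb (e ▸ hn.mul hm)

/-- opening a convolution -/
theorem sum_cv (f g F : O → ℂ) {X Z : ℝ} (hXZ : X ≤ Z)
    (h : ∀ n m, Prim n → Prim m → f n ≠ 0 → g m ≠ 0 → nm n * nm m ≤ X) :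
    ∑ b ∈ pball X, cv f g b * F b = ∑ n ∈ pball Z, ∑ m ∈ pball Z, f n * g m * F (n * m) := by
  classical
  rw [← Finset.sum_product']
  have e1 : ∑ b ∈ pball X, cv f g b * F b =
      ∑ b ∈ pball X, ∑ p ∈ (pball Z ×ˢ pball Z).filter (fun p => p.1 * p.2 = b),
        f p.1 * g p.2 * F (p.1 * p.2) := by
    refine Finset.sum_congr rfl fun b hb => ?_
    obtain ⟨hbX, hbp⟩ := mem_pball.1 hb
    have : anti b = (pball Z ×ˢ pball Z).filter (fun p => p.1 * p.2 = b) := by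
      ext p
      rw [mem_anti, Finset.mem_filter, Finset.mem_product, mem_pball, mem_pball]
      constructor
      · rintro ⟨h1, h2, h3⟩
        refine ⟨⟨⟨?_, h1⟩, ⟨?_, h2⟩⟩, h3⟩
        · exact (nm_le_of_dvd ⟨p.2, h3.symm⟩ hbp.ne_zero).trans (hbX.trans hXZ)
        · exact (nm_le_of_dvd ⟨p.1, by rw [← h3, mul_comm]⟩ hbp.ne_zero).trans (hbX.trans hXZ)
      · rintro ⟨⟨⟨-, h1⟩, ⟨-, h2⟩⟩, h3⟩
        exact ⟨h1, h2, h3⟩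
    rw [cv, Finset.sum_mul, this]
    refine Finset.sum_congr rfl fun p hp => ?_
    rw [(Finset.mem_filter.1 hp).2]
  rw [e1, Finset.sum_fiberwise_eq_sum_filter _ _ (fun p : O × O => p.1 * p.2)
    (fun p : O × O => f p.1 * g p.2 * F (p.1 * p.2))]
  refine Finset.sum_filter_of_ne fun p hp h0 => ?_
  obtain ⟨h1, h2⟩ := Finset.mem_product.1 hp
  have h1 := (mem_pball.1 h1).2
  have h2 := (mem_pball.1 h2).2
  refine mem_pball.2 ⟨?_, h1.mul h2⟩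
  rw [nm_mul]
  exact h _ _ h1 h2 (left_ne_zero_of_mul (left_ne_zero_of_mul h0))
    (right_ne_zero_of_mul (left_ne_zero_of_mul h0))

theorem norm_cv_le {f g : O → ℂ} {j k : ℕ} {s t : ℝ} (hs : 0 ≤ s) (ht : 0 ≤ t)
    (hf : ∀ n, Prim n → ‖f n‖ ≤ s * dn n ^ j) (hg : ∀ n, Prim n → ‖g n‖ ≤ t * dn n ^ k) (b : O) :
    ‖cv f g b‖ ≤ s * t * dn b ^ (j + k + 1) := by
  by_cases hb : Prim b
  swap
  · rw [cv_eq_zero hb, norm_zero]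
    have := dn_nonneg b
    positivity
  have key : ∀ p ∈ anti b, ‖f p.1 * g p.2‖ ≤ s * t * dn b ^ (j + k) := by
    intro p hp
    obtain ⟨h1, h2, h3⟩ := mem_anti.1 hp
    have d1 : dn p.1 ≤ dn b := dn_le_of_dvd hb.ne_zero ⟨p.2, h3.symm⟩
    have d2 : dn p.2 ≤ dn b := dn_le_of_dvd hb.ne_zero ⟨p.1, by rw [← h3, mul_comm]⟩
    have n1 := dn_nonneg p.1
    have n2 := dn_nonneg p.2
    have n3 := dn_nonneg b
    rw [norm_mul]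
    calc ‖f p.1‖ * ‖g p.2‖ ≤ (s * dn p.1 ^ j) * (t * dn p.2 ^ k) :=
          mul_le_mul (hf _ h1) (hg _ h2) (norm_nonneg _) (by positivity)
      _ ≤ (s * dn b ^ j) * (t * dn b ^ k) := by gcongr
      _ = _ := by ring
  calc ‖cv f g b‖ ≤ ∑ p ∈ anti b, ‖f p.1 * g p.2‖ := norm_sum_le _ _
    _ ≤ (anti b).card • (s * t * dn b ^ (j + k)) := Finset.sum_le_card_nsmul _ _ _ key
    _ = _ := by rw [nsmul_eq_mul, card_anti hb]; ring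

theorem norm_pl_le_LW (l : ℤ) (M t : ℝ) (n : O) : ‖pl l M t n‖ ≤ LW 1 M (nm n) := by
  rw [pl, norm_mul, norm_LN_eq_LW]
  exact mul_le_of_le_one_left (LW_pos _ _ _).le (bla_norm_le n l)

theorem norm_pl_le (l : ℤ) (M t : ℝ) (n : O) : ‖pl l M t n‖ ≤ 1 :=
  (norm_pl_le_LW l M t n).trans (LW_le_one _ _ _)

theorem norm_plc_le (l : ℤ) (M t R : ℝ) (n : O) : ‖plc l M t R n‖ ≤ 1 := by
  unfold plc
  split_ifs
  · exact norm_pl_le _ _ _ _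
  · simp

theorem plc_ne_zero {l : ℤ} {M t R : ℝ} {n : O} (h : plc l M t R n ≠ 0) :
    M / R < nm n ∧ nm n ≤ M * R := by
  by_contra h'
  exact h (by unfold plc; rw [if_neg h'])

/-- the tail of a plain variable is pointwise negligible -/
theorem pl_sub_plc (J : ℝ) {ε : ℝ} (hε : 0 < ε) : ∃ C : ℝ, 0 < C ∧ ∀ (l : ℤ) (Y M t R : ℝ) (n : O), 1 ≤ Y →
    0 < M → Y ^ ε ≤ R → n ≠ 0 → ‖pl l M t n - plc l M t R n‖ ≤ C * Y ^ (-J) := by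
  obtain ⟨C, hC, h⟩ := LW_small J ε hε
  refine ⟨C, hC, fun l Y M t R n hY hM hR hn => ?_⟩
  have hY0 : 0 < Y := by linarith
  have hp : 0 < Y ^ ε := Real.rpow_pos_of_pos hY0 _
  unfold plc
  split_ifs with hc
  · rw [sub_self, norm_zero]
    positivity
  · rw [sub_zero]
    refine (norm_pl_le_LW l M t n).trans (h 1 M Y (nm n) one_pos one_le_two hY hM (nm_pos hn) ?_)
    rcases not_and_or.1 hc with h1 | h1
    · left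
      rw [Real.rpow_neg hY0.le, ← div_eq_mul_inv]
      exact (not_lt.1 h1).trans (div_le_div_of_nonneg_left hM.le hp hR)
    · right
      exact (mul_le_mul_of_nonneg_left hR hM.le).trans (not_le.1 h1).le

theorem norm_cv_plc_le (l : ℤ) (M₂ t₂ M₃ t₃ R : ℝ) (b : O) :
    ‖cv (plc l M₂ t₂ R) (plc l M₃ t₃ R) b‖ ≤ dn b := by
  simpa using norm_cv_le (j := 0) (k := 0) zero_le_one zero_le_one
    (fun n _ => by simpa using norm_plc_le l M₂ t₂ R n) (fun n _ => by simpa using norm_plc_le l M₃ t₃ R n) b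

theorem dv_cv_plc {k : ℕ} {c : O → ℂ} (hc : Dv k c) (l : ℤ) (M t R : ℝ) : Dv (k + 1) (cv c (plc l M t R)) :=
  fun b => by
  simpa using norm_cv_le (j := k) (k := 0) zero_le_one zero_le_one
    (fun n _ => by simpa using hc n) (fun n _ => by simpa using norm_plc_le l M t R n) b

theorem dv_gq {k : ℕ} {c : O → ℂ} (hc : Dv k c) (l : ℤ) (M₂ t₂ M₃ t₃ R : ℝ) :
    Dv (k + 2) (gq l c M₂ t₂ M₃ t₃ R) := fun b => by
  unfold gq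
  split_ifs
  · simpa using norm_cv_le (j := k) (k := 1) zero_le_one zero_le_one
      (fun n _ => by simpa using hc n) (fun n _ => by simpa using norm_cv_plc_le l M₂ t₂ M₃ t₃ R n) b
  · have := dn_nonneg b
    rw [norm_zero]
    positivity

theorem cv_plc_ne_zero {l : ℤ} {M₂ t₂ M₃ t₃ R : ℝ} (h2 : 0 < M₂) (h3 : 0 < M₃) (hR : 0 < R) {b : O}
    (h : cv (plc l M₂ t₂ R) (plc l M₃ t₃ R) b ≠ 0) :
    M₂ * M₃ / R ^ 2 < nm b ∧ nm b ≤ M₂ * M₃ * R ^ 2 := by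
  obtain ⟨n, m, -, -, e, hn, hm⟩ := cv_ne_zero h
  obtain ⟨a1, a2⟩ := plc_ne_zero hn
  obtain ⟨b1, b2⟩ := plc_ne_zero hm
  rw [← e, nm_mul]
  constructor
  · calc M₂ * M₃ / R ^ 2 = M₂ / R * (M₃ / R) := by field_simp
      _ < nm n * nm m := mul_lt_mul'' a1 b1 (by positivity) (by positivity)
  · calc nm n * nm m ≤ M₂ * R * (M₃ * R) := mul_le_mul a2 b2 (nm_nonneg _) (by positivity)
      _ = _ := by ring

theorem supp_gq {l : ℤ} {c : O → ℂ} {N₀ M₂ t₂ M₃ t₃ R B X : ℝ} (hN : 0 < N₀) (h2 : 0 < M₂) (h3 : 0 < M₃)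
    (hR : 0 < R) (hB : B ≤ N₀ * M₂ * M₃ / R ^ 2) (hX : 2 * N₀ * M₂ * M₃ * R ^ 2 ≤ X)
    (hc : ∀ n, c n ≠ 0 → N₀ < nm n ∧ nm n ≤ 2 * N₀) : Supp (gq l c M₂ t₂ M₃ t₃ R) B X := by
  intro b hb
  unfold gq at hb
  split_ifs at hb with hp
  swap
  · exact absurd rfl hb
  obtain ⟨n, m, -, -, e, hn, hm⟩ := cv_ne_zero hb
  obtain ⟨a1, a2⟩ := hc n hn
  obtain ⟨b1, b2⟩ := cv_plc_ne_zero h2 h3 hR hm
  refine ⟨hp, hB.trans_lt ?_, le_trans ?_ hX⟩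
  · rw [← e, nm_mul]
    calc N₀ * M₂ * M₃ / R ^ 2 = N₀ * (M₂ * M₃ / R ^ 2) := by ring
      _ < nm n * nm m := mul_lt_mul'' a1 b1 hN.le (by positivity)
  · rw [← e, nm_mul]
    calc nm n * nm m ≤ 2 * N₀ * (M₂ * M₃ * R ^ 2) := mul_le_mul a2 b2 (nm_nonneg _) (by positivity)
      _ = _ := by ring

open Classical in
/-- opening `gq` into three variables -/
theorem sum_gq (l : ℤ) {c : O → ℂ} {N₀ M₂ M₃ R X Z : ℝ} (t₂ t₃ : ℝ) (hN : 1 / 2 ≤ N₀) (h2 : 0 < M₂)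
    (h3 : 0 < M₃) (hR : 0 < R) (hX : 2 * N₀ * M₂ * M₃ * R ^ 2 ≤ X) (hZ : X ≤ Z)
    (hc : ∀ n, c n ≠ 0 → nm n ≤ 2 * N₀) (F : O → ℂ) :
    ∑ b ∈ ball X, gq l c M₂ t₂ M₃ t₃ R b * F b = ∑ n₀ ∈ pball Z, ∑ n₂ ∈ pball Z, ∑ n₃ ∈ pball Z,
      if PSq (n₀ * n₂ * n₃) then c n₀ * plc l M₂ t₂ R n₂ * plc l M₃ t₃ R n₃ * F (n₀ * n₂ * n₃) else 0 := by
  have hM : M₂ * M₃ * R ^ 2 ≤ X := by
    refine le_trans ?_ hX
    have : 0 < M₂ * M₃ * R ^ 2 := by positivity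
    nlinarith
  have e1 : ∑ b ∈ ball X, gq l c M₂ t₂ M₃ t₃ R b * F b =
      ∑ b ∈ pball X, cv c (cv (plc l M₂ t₂ R) (plc l M₃ t₃ R)) b * (if PSq b then F b else 0) := by
    rw [pball, Finset.sum_filter]
    refine Finset.sum_congr rfl fun b _ => ?_
    unfold gq
    by_cases hp : PSq b
    · rw [if_pos hp, if_pos hp.1, if_pos hp]
    · simp [hp]
  rw [e1, sum_cv _ _ _ hZ]
  swap
  · intro n m _ _ hn hm
    calc nm n * nm m ≤ 2 * N₀ * (M₂ * M₃ * R ^ 2) :=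
          mul_le_mul (hc n hn) (cv_plc_ne_zero h2 h3 hR hm).2 (nm_nonneg _) (by linarith)
      _ = 2 * N₀ * M₂ * M₃ * R ^ 2 := by ring
      _ ≤ X := hX
  refine Finset.sum_congr rfl fun n₀ _ => ?_
  have e2 := sum_cv (plc l M₂ t₂ R) (plc l M₃ t₃ R)
    (fun m => c n₀ * (if PSq (n₀ * m) then F (n₀ * m) else 0)) (le_refl Z) (fun n m _ _ hn hm => by
      calc nm n * nm m ≤ M₂ * R * (M₃ * R) :=
            mul_le_mul (plc_ne_zero hn).2 (plc_ne_zero hm).2 (nm_nonneg _) (by positivity)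
        _ = M₂ * M₃ * R ^ 2 := by ring
        _ ≤ Z := hM.trans hZ)
  calc _ = ∑ m ∈ pball Z, cv (plc l M₂ t₂ R) (plc l M₃ t₃ R) m *
        (c n₀ * (if PSq (n₀ * m) then F (n₀ * m) else 0)) := Finset.sum_congr rfl fun m _ => by ring
    _ = _ := by
      rw [e2]
      refine Finset.sum_congr rfl fun n₂ _ => Finset.sum_congr rfl fun n₃ _ => ?_
      rw [← mul_assoc n₀]
      split_ifs <;> ring

/-- the twist `x^(-iτ)` -/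
noncomputable def tw (τ x : ℝ) : ℂ := Complex.exp (-(Complex.I * ((τ * Real.log x : ℝ) : ℂ)))

theorem norm_tw (τ x : ℝ) : ‖tw τ x‖ = 1 := by
  rw [tw, Complex.norm_exp]
  simp

theorem tw_mul (τ : ℝ) {x y : ℝ} (hx : x ≠ 0) (hy : y ≠ 0) : tw τ (x * y) = tw τ x * tw τ y := by
  rw [tw, tw, tw, ← Complex.exp_add, Real.log_mul hx hy]
  congr 1
  push_cast
  ring

theorem LN_mul_tw (a : ℝ) {M x : ℝ} (hM : 0 < M) (hx : 0 < x) (t τ : ℝ) :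
    LN a M t x * tw τ x = tw τ M * LN a M (t - τ) x := by
  rw [tw, tw, LN, LN, ← Complex.exp_add, ← Complex.exp_add, Real.log_div hx.ne' hM.ne']
  congr 1
  push_cast
  ring

theorem plc_mul_tw (l : ℤ) {M : ℝ} (hM : 0 < M) (t R τ : ℝ) {n : O} (hn : n ≠ 0) :
    plc l M t R n * tw τ (nm n) = tw τ M * plc l M (t - τ) R n := by
  unfold plc
  split_ifs
  · rw [pl, pl, mul_assoc, LN_mul_tw 1 hM (nm_pos hn)]
    ring
  · simp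

theorem cv_mul_tw (f g : O → ℂ) (τ : ℝ) (b : O) :
    cv f g b * tw τ (nm b) = cv (fun n => f n * tw τ (nm n)) (fun n => g n * tw τ (nm n)) b := by
  rw [cv, cv, Finset.sum_mul]
  refine Finset.sum_congr rfl fun p hp => ?_
  obtain ⟨h1, h2, h3⟩ := mem_anti.1 hp
  rw [← h3, nm_mul, tw_mul τ (nm_pos h1.ne_zero).ne' (nm_pos h2.ne_zero).ne']
  ring

theorem gq_mul_tw (l : ℤ) (c : O → ℂ) {M₂ M₃ : ℝ} (h2 : 0 < M₂) (h3 : 0 < M₃) (t₂ t₃ R τ : ℝ) (b : O) :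
    gq l c M₂ t₂ M₃ t₃ R b * tw τ (nm b) =
      tw τ (M₂ * M₃) * gq l (fun n => c n * tw τ (nm n)) M₂ (t₂ - τ) M₃ (t₃ - τ) R b := by
  unfold gq
  split_ifs
  swap
  · simp
  rw [cv_mul_tw, cv, cv, Finset.mul_sum]
  refine Finset.sum_congr rfl fun p _ => ?_
  rw [cv_mul_tw, cv, cv, tw_mul τ h2.ne' h3.ne', Finset.mul_sum, Finset.mul_sum, Finset.mul_sum]
  refine Finset.sum_congr rfl fun q hq => ?_
  obtain ⟨h1, h2', -⟩ := mem_anti.1 hq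
  rw [plc_mul_tw l h2 _ _ _ h1.ne_zero, plc_mul_tw l h3 _ _ _ h2'.ne_zero]
  ring

/-- the difference of the two centrings -/
noncomputable def gd (l : ℤ) (c : O → ℂ) (M₂ t₂ M₃ t₃ M₂' M₃' R : ℝ) (b : O) : ℂ :=
  gq l c M₂ t₂ M₃ t₃ R b - gq l c M₂' t₂ M₃' t₃ R b

/-- the standing hypotheses on the parameters of `gd` -/
structure QH (θ ε : ℝ) (k : ℕ) (Y R B X N₀ M₂ M₃ M₂' M₃' : ℝ) (c : O → ℂ) : Prop where
  hθ : θ ≤ 1 / 10000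
  hε : 0 < ε
  hY : 2 ≤ Y
  hR : Y ^ ε ≤ R
  hB : Y ^ (1 / 2 - θ) ≤ B
  hX : X ≤ Y ^ (1 / 2 + θ)
  hN : 1 / 2 ≤ N₀
  h2 : Y ^ (7 / 100 : ℝ) ≤ M₂
  h3 : Y ^ (7 / 100 : ℝ) ≤ M₃
  h2' : Y ^ (7 / 100 : ℝ) ≤ M₂'
  h3' : Y ^ (7 / 100 : ℝ) ≤ M₃'
  hM : M₂' * M₃' = M₂ * M₃
  h33 : Y ^ (33 / 100 : ℝ) ≤ M₂ * M₃
  hB' : B ≤ N₀ * M₂ * M₃ / R ^ 2
  hX' : 2 * N₀ * M₂ * M₃ * R ^ 2 ≤ X
  hc : Dv k c
  hs : ∀ n, c n ≠ 0 → N₀ < nm n ∧ nm n ≤ 2 * N₀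

section
variable {θ ε : ℝ} {k : ℕ} {Y R B X N₀ M₂ M₃ M₂' M₃' : ℝ} {c : O → ℂ}

theorem QH.one_le_Y (h : QH θ ε k Y R B X N₀ M₂ M₃ M₂' M₃' c) : 1 ≤ Y := by linarith [h.hY]

theorem QH.one_le_R (h : QH θ ε k Y R B X N₀ M₂ M₃ M₂' M₃' c) : 1 ≤ R :=
  (Real.one_le_rpow h.one_le_Y h.hε.le).trans h.hR

theorem QH.one_le_mu (h : QH θ ε k Y R B X N₀ M₂ M₃ M₂' M₃' c) : 1 ≤ Y ^ (7 / 100 : ℝ) :=
  Real.one_le_rpow h.one_le_Y (by norm_num)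

theorem QH.one_le_B (h : QH θ ε k Y R B X N₀ M₂ M₃ M₂' M₃' c) : 1 ≤ B :=
  (Real.one_le_rpow h.one_le_Y (by linarith [h.hθ])).trans h.hB

theorem QH.X_le (h : QH θ ε k Y R B X N₀ M₂ M₃ M₂' M₃' c) : X ≤ Y := by
  refine h.hX.trans ?_
  calc Y ^ (1 / 2 + θ) ≤ Y ^ (1 : ℝ) := Real.rpow_le_rpow_of_exponent_le h.one_le_Y (by linarith [h.hθ])
    _ = Y := Real.rpow_one Y

/-- `2 B R⁴ ≤ X` -/
theorem QH.BR_le (h : QH θ ε k Y R B X N₀ M₂ M₃ M₂' M₃' c) : 2 * B * R ^ 4 ≤ X := by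
  have hR : 0 < R := by linarith [h.one_le_R]
  have h1 := h.hB'
  rw [le_div_iff₀ (by positivity)] at h1
  calc 2 * B * R ^ 4 = 2 * (B * R ^ 2) * R ^ 2 := by ring
    _ ≤ 2 * (N₀ * M₂ * M₃) * R ^ 2 := by gcongr
    _ = 2 * N₀ * M₂ * M₃ * R ^ 2 := by ring
    _ ≤ X := h.hX'

theorem QH.two_le_X (h : QH θ ε k Y R B X N₀ M₂ M₃ M₂' M₃' c) : 2 ≤ X := by
  have h1 := h.one_le_B
  have h2 : 1 ≤ R ^ 4 := one_le_pow₀ h.one_le_R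
  have h3 := h.BR_le
  nlinarith

theorem QH.swap (h : QH θ ε k Y R B X N₀ M₂ M₃ M₂' M₃' c) : QH θ ε k Y R B X N₀ M₂' M₃' M₂ M₃ c :=
  ⟨h.hθ, h.hε, h.hY, h.hR, h.hB, h.hX, h.hN, h.h2', h.h3', h.h2, h.h3, h.hM.symm, h.hM ▸ h.h33,
    by rw [mul_assoc, h.hM, ← mul_assoc]; exact h.hB',
    by rw [mul_assoc (2 * N₀), h.hM, ← mul_assoc]; exact h.hX', h.hc, h.hs⟩

theorem QH.tw (h : QH θ ε k Y R B X N₀ M₂ M₃ M₂' M₃' c) (τ : ℝ) :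
    QH θ ε k Y R B X N₀ M₂ M₃ M₂' M₃' fun n => c n * tw τ (nm n) :=
  ⟨h.hθ, h.hε, h.hY, h.hR, h.hB, h.hX, h.hN, h.h2, h.h3, h.h2', h.h3', h.hM, h.h33, h.hB', h.hX',
    h.hc.mul fun _ => (norm_tw _ _).le, fun n hn => h.hs n (left_ne_zero_of_mul hn)⟩

theorem QH.supp_gq (h : QH θ ε k Y R B X N₀ M₂ M₃ M₂' M₃' c) (l : ℤ) (t₂ t₃ : ℝ) :
    Supp (gq l c M₂ t₂ M₃ t₃ R) B X :=
  QB.supp_gq (by linarith [h.hN]) (by linarith [h.one_le_mu, h.h2]) (by linarith [h.one_le_mu, h.h3])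
    (by linarith [h.one_le_R]) h.hB' h.hX' h.hs

theorem QH.supp_gd (h : QH θ ε k Y R B X N₀ M₂ M₃ M₂' M₃' c) (l : ℤ) (t₂ t₃ : ℝ) :
    Supp (gd l c M₂ t₂ M₃ t₃ M₂' M₃' R) B X := by
  intro b hb
  by_cases h1 : gq l c M₂ t₂ M₃ t₃ R b = 0
  · refine h.swap.supp_gq l t₂ t₃ b fun h2 => hb ?_
    rw [gd, h1, h2, sub_zero]
  · exact h.supp_gq l t₂ t₃ b h1

theorem QH.dv_gd (h : QH θ ε k Y R B X N₀ M₂ M₃ M₂' M₃' c) (l : ℤ) (t₂ t₃ : ℝ) :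
    Dv (k + 3) (gd l c M₂ t₂ M₃ t₃ M₂' M₃' R) := by
  intro b
  have hb0 := dn_nonneg b
  by_cases h0 : gd l c M₂ t₂ M₃ t₃ M₂' M₃' R b = 0
  · rw [h0, norm_zero]
    positivity
  obtain ⟨hp, h1, -⟩ := h.supp_gd l t₂ t₃ b h0
  have hb1 : b ≠ 1 := by
    rintro rfl
    rw [nm_one] at h1
    linarith [h.one_le_B]
  obtain ⟨p, hp1, hp2, hp3⟩ := hp.1.exists_prime_dvd hb1
  have h2 : 2 ≤ dn b := dn_prime hp1 hp2 ▸ dn_le_of_dvd hp.ne_zero hp3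
  calc ‖gd l c M₂ t₂ M₃ t₃ M₂' M₃' R b‖ ≤ dn b ^ (k + 2) + dn b ^ (k + 2) :=
        (norm_sub_le _ _).trans (add_le_add (dv_gq h.hc _ _ _ _ _ _ b) (dv_gq h.hc _ _ _ _ _ _ b))
    _ = dn b ^ (k + 2) * 2 := by ring
    _ ≤ dn b ^ (k + 2) * dn b := by gcongr
    _ = _ := by ring

theorem QH.gd_mul_tw (h : QH θ ε k Y R B X N₀ M₂ M₃ M₂' M₃' c) (l : ℤ) (t₂ t₃ τ : ℝ) (b : O) :
    gd l c M₂ t₂ M₃ t₃ M₂' M₃' R b * QB.tw τ (nm b) = QB.tw τ (M₂ * M₃) *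
      gd l (fun n => c n * QB.tw τ (nm n)) M₂ (t₂ - τ) M₃ (t₃ - τ) M₂' M₃' R b := by
  have := h.one_le_mu
  rw [gd, gd, sub_mul, mul_sub, gq_mul_tw l c (by linarith [h.h2]) (by linarith [h.h3]),
    gq_mul_tw l c (by linarith [h.h2']) (by linarith [h.h3']), h.hM]

end

end Crest.Agent.R12.QB
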