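import Crest.Agent.R12.Iface
import Crest.Agent.R12.Base.All

/-!
Row 12, block QB: definitions and the interface between the two halves
(helper12: centring, model, amplification; helper72: dual rows, `StQR`).
-/

set_option autoImplicit false

namespace Crest.Agent.R12

open Crest.Agent.R17
open scoped ComplexConjugate

open Classical in
/-- the plain variable cut to `(M / R, M R]` -/
noncomputable def plc (l : ℤ) (M t R : ℝ) (n : O) : ℂ :=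
  if M / R < nm n ∧ nm n ≤ M * R then pl l M t n else 0

/-- Dirichlet convolution on primary elements -/
noncomputable def cv (f g : O → ℂ) (b : O) : ℂ := ∑ p ∈ anti b, f p.1 * g p.2

open Classical in
/-- the column sequence `μ² · (c * plc₂ * plc₃)` -/
noncomputable def gq (l : ℤ) (c : O → ℂ) (M₂ t₂ M₃ t₃ R : ℝ) (b : O) : ℂ :=
  if PSq b then cv c (cv (plc l M₂ t₂ R) (plc l M₃ t₃ R)) b else 0

/-- Block QB, dual rows (`StAllG → StMom → StPV → StQR`, file `R12/QB/Rows.lean`, theorem `stQR`):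
the non-cube dual rows of ONE sequence `gq` (no cancellation between the two centrings is used).
The exponent `E` of the twists depends on `l` only. -/
def StQR : Prop :=
  ∀ l : ℤ, ∃ (E : ℕ) (η δ : ℝ), 0 < η ∧ 0 < δ ∧ ∀ (ε : ℝ) (k : ℕ), 0 < ε → ∃ (C : ℝ) (ν : ℕ),
    ∀ (Y R A' B X N₀ M₂ M₃ t₂ t₃ : ℝ) (c : O → ℂ), 2 ≤ Y → Y ^ ε ≤ R →
      Y ^ (68 / 100 - η) ≤ A' → A' ≤ Y ^ (68 / 100 + η) → Y ^ (1 / 2 - η) ≤ B → X ≤ Y ^ (1 / 2 + η) →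
      1 / 2 ≤ N₀ → 1 ≤ M₂ → 1 ≤ M₃ → Y ^ (33 / 100 : ℝ) ≤ M₂ * M₃ →
      B ≤ N₀ * M₂ * M₃ / R ^ 2 → 2 * N₀ * M₂ * M₃ * R ^ 2 ≤ X →
      Dv k c → (∀ n, c n ≠ 0 → N₀ < nm n ∧ nm n ≤ 2 * N₀) →
      ∃ φ₁ φ₂ : O → ℝ, (∀ n, 0 ≤ φ₁ n) ∧ (∀ n, 0 ≤ φ₂ n) ∧
        RowBd (fun k => ¬ Cube k) (gq l c M₂ t₂ M₃ t₃ R) X B (B ^ 2 / (1 ^ 2 * A')) ν φ₁ φ₂ ∧
        OD 1 A' B X ν φ₁ φ₂ ≤ C * (1 + |t₂| + |t₃|) ^ E * Y ^ (7 / 6 + 6 / 100 - δ)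

end Crest.Agent.R12
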