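import Crest.Agent.R12.QB.Cv

/-!
Row 12, block QB: the energy of a column sequence whose model sum is small.
-/

set_option autoImplicit false

namespace Crest.Agent.R12.QB

open Crest.Agent.R17
open scoped ComplexConjugate

/-- `dn_succ_pow_le`, `card_le_of_nm_le` -/
theorem en_sq_le (k j : ℕ) {ε : ℝ} (hε : 0 < ε) : ∃ C : ℝ, 0 < C ∧ ∀ (γ : O → ℂ) (B X : ℝ), 1 ≤ X →
    Supp γ B X → Dv k γ → ∑ b ∈ ball X, ‖γ b‖ ^ 2 * dn b ^ j ≤ C * X ^ ε * X := by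
  obtain ⟨C, hC, h⟩ := dn_pow_le (2 * k + j) hε
  refine ⟨C * 11, by positivity, fun γ B X hX hS hD => ?_⟩
  have hX0 : 0 ≤ X := by linarith
  have key : ∀ b ∈ ball X, ‖γ b‖ ^ 2 * dn b ^ j ≤ C * X ^ ε := fun b hb => by
    by_cases h0 : γ b = 0
    · rw [h0, norm_zero, zero_pow two_ne_zero, zero_mul]
      positivity
    have hn := dn_nonneg b
    have hb' := nm_nonneg b
    calc ‖γ b‖ ^ 2 * dn b ^ j ≤ (dn b ^ k) ^ 2 * dn b ^ j := by gcongr; exact hD b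
      _ = dn b ^ (2 * k + j) := by ring
      _ ≤ C * nm b ^ ε := h b (hS b h0).1.1.ne_zero
      _ ≤ C * X ^ ε := by gcongr; exact mem_ball.1 hb
  refine (Finset.sum_le_card_nsmul _ _ _ key).trans ?_
  rw [nsmul_eq_mul]
  calc ((ball X).card : ℝ) * (C * X ^ ε) ≤ 11 * X * (C * X ^ ε) := by
        gcongr; exact card_ball_le hX
    _ = _ := by ring

theorem en_abs_le (k j : ℕ) {ε : ℝ} (hε : 0 < ε) : ∃ C : ℝ, 0 < C ∧ ∀ (γ : O → ℂ) (B X : ℝ), 0 < B → 1 ≤ X →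
    Supp γ B X → Dv k γ → ∑ b ∈ ball X, ‖γ b‖ * n6 b * dn b ^ j ≤ C * X ^ ε * (B ^ (-(1 : ℝ) / 6) * X) := by
  obtain ⟨C, hC, h⟩ := dn_pow_le (k + j) hε
  refine ⟨C * 11, by positivity, fun γ B X hB hX hS hD => ?_⟩
  have hX0 : 0 ≤ X := by linarith
  have key : ∀ b ∈ ball X, ‖γ b‖ * n6 b * dn b ^ j ≤ C * X ^ ε * B ^ (-(1 : ℝ) / 6) := fun b hb => by
    by_cases h0 : γ b = 0
    · rw [h0, norm_zero, zero_mul, zero_mul]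
      positivity
    have hn := dn_nonneg b
    have hb' := nm_nonneg b
    have h6 := n6_nonneg b
    calc ‖γ b‖ * n6 b * dn b ^ j ≤ dn b ^ k * B ^ (-(1 : ℝ) / 6) * dn b ^ j := by
          gcongr
          · exact hD b
          · exact n6_le hB (hS b h0).2.1.le
      _ = dn b ^ (k + j) * B ^ (-(1 : ℝ) / 6) := by ring
      _ ≤ C * nm b ^ ε * B ^ (-(1 : ℝ) / 6) := by
          gcongr
          exact h b (hS b h0).1.1.ne_zero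
      _ ≤ _ := by gcongr; exact mem_ball.1 hb
  refine (Finset.sum_le_card_nsmul _ _ _ key).trans ?_
  rw [nsmul_eq_mul]
  calc ((ball X).card : ℝ) * (C * X ^ ε * B ^ (-(1 : ℝ) / 6)) ≤
        11 * X * (C * X ^ ε * B ^ (-(1 : ℝ) / 6)) := by
        gcongr; exact card_ball_le hX
    _ = _ := by ring

/-- for `g ∈ sball X`: `‖γ (g n)‖ dn n ≤ dn (g n) ^ (k+1) ≤ C X^(ε/3)` on `n ≠ 0`, `N n ≤ X / N g` (`card_le_of_nm_le`);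
`dn g ≤ C X^(ε/3)`; `∑ N g ^ (17/20 - 2) ≤ C` (`sum_nm_rpow_tail`, `σ = 23/20`, `X = 1`) -/
theorem CR2_le (k : ℕ) {ε : ℝ} (hε : 0 < ε) : ∃ C : ℝ, 0 < C ∧ ∀ (γ : O → ℂ) (B X : ℝ), 1 ≤ X →
    Supp γ B X → Dv k γ → CR2 γ X ≤ C * X ^ ε * X ^ 2 := by
  classical
  have hε3 : 0 < ε / 3 := by positivity
  obtain ⟨C, hC, h⟩ := dn_pow_le (k + 1) hε3
  obtain ⟨C₁, hC₁, h₁⟩ := dn_pow_le 1 hε3
  obtain ⟨C₂, hC₂, h₂⟩ := sum_nm_rpow_tail (σ := 23 / 20) (by norm_num)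
  refine ⟨C₁ * (11 * C) ^ 2 * C₂, by positivity, fun γ B X hX hS hD => ?_⟩
  have hX0 : 0 ≤ X := by linarith
  have hXp : 0 < X := by linarith
  have inner : ∀ g ∈ sball X, ∑ n ∈ ball X, ‖γ (g * n)‖ * dn n ≤ 11 * (X / nm g) * (C * X ^ (ε / 3)) := by
    intro g hg
    have hg0 : g ≠ 0 := (mem_sball.1 hg).2.1.ne_zero
    have hgp := nm_pos hg0
    rw [← Finset.sum_filter_of_ne (p := fun n => γ (g * n) ≠ 0)
      (fun n _ hn h0 => hn (by rw [h0, norm_zero, zero_mul]))]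
    have key : ∀ n ∈ (ball X).filter (fun n => γ (g * n) ≠ 0),
        ‖γ (g * n)‖ * dn n ≤ C * X ^ (ε / 3) := fun n hn => by
      have h0 := hS _ (Finset.mem_filter.1 hn).2
      have hne : g * n ≠ 0 := h0.1.1.ne_zero
      have hn1 := dn_nonneg n
      have hn2 := dn_nonneg (g * n)
      have hn3 := nm_nonneg (g * n)
      calc ‖γ (g * n)‖ * dn n ≤ dn (g * n) ^ k * dn (g * n) := by
            gcongr
            · exact hD _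
            · exact dn_le_of_dvd hne (dvd_mul_left _ _)
        _ = dn (g * n) ^ (k + 1) := by ring
        _ ≤ C * nm (g * n) ^ (ε / 3) := h _ hne
        _ ≤ _ := by gcongr; exact h0.2.2
    refine (Finset.sum_le_card_nsmul _ _ _ key).trans ?_
    rw [nsmul_eq_mul]
    gcongr
    refine card_le_of_nm_le (by positivity) fun n hn => ?_
    have h0 := hS _ (Finset.mem_filter.1 hn).2
    refine ⟨right_ne_zero_of_mul h0.1.1.ne_zero, ?_⟩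
    rw [le_div_iff₀ hgp, mul_comm, ← nm_mul]
    exact h0.2.2
  have e3 : X ^ ε = (X ^ (ε / 3)) ^ 3 := by
    rw [← Real.rpow_natCast, ← Real.rpow_mul hX0]
    congr 1
    push_cast
    ring
  calc CR2 γ X ≤ ∑ g ∈ sball X, C₁ * (11 * C) ^ 2 * X ^ ε * X ^ 2 * nm g ^ (-(23 / 20 : ℝ)) := by
        refine Finset.sum_le_sum fun g hg => ?_
        have hg0 : g ≠ 0 := (mem_sball.1 hg).2.1.ne_zero
        have hgp := nm_pos hg0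
        have hd : dn g ≤ C₁ * X ^ (ε / 3) := by
          have := h₁ g hg0
          rw [pow_one] at this
          refine this.trans ?_
          gcongr
          exact (mem_sball.1 hg).1
        have h3 : 0 ≤ ∑ n ∈ ball X, ‖γ (g * n)‖ * dn n :=
          Finset.sum_nonneg fun n _ => mul_nonneg (norm_nonneg _) (dn_nonneg n)
        have e4 : nm g ^ (-(23 / 20 : ℝ)) = nm g ^ (17 / 20 : ℝ) / nm g ^ 2 := by
          rw [← Real.rpow_natCast, ← Real.rpow_sub hgp]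
          norm_num
        calc nm g ^ (17 / 20 : ℝ) * dn g * (∑ n ∈ ball X, ‖γ (g * n)‖ * dn n) ^ 2
            ≤ nm g ^ (17 / 20 : ℝ) * (C₁ * X ^ (ε / 3)) * (11 * (X / nm g) * (C * X ^ (ε / 3))) ^ 2 := by
              gcongr
              exact inner g hg
          _ = _ := by rw [e3, e4]; field_simp
    _ = C₁ * (11 * C) ^ 2 * X ^ ε * X ^ 2 * ∑ g ∈ sball X, nm g ^ (-(23 / 20 : ℝ)) := by
        rw [Finset.mul_sum]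
    _ ≤ C₁ * (11 * C) ^ 2 * X ^ ε * X ^ 2 * C₂ := by
        gcongr
        simpa using h₂ 1 (sball X) one_pos fun g hg => one_le_nm (mem_sball.1 hg).2.1.ne_zero
    _ = _ := by ring

/-- `‖Md γ X x‖² = cP² n6 x ² ‖TC x‖² ‖YM γ X x‖² ≤ C S² (N x)^σ ‖TC x‖²` with `σ = ε' - 1/3`, `ε' = min ε (1/3)`
(`cP_le`, `dn_succ_pow_le 3`); `LW_mul_rpow` moves the centre to `A e^σ ∈ [1, A]` (`e^σ ≥ 1 + σ ≥ 2/3`); `tsum_TC_sq_le`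
(`Summable.tsum_le_tsum` with `Summable.of_nonneg_of_le`). -/
theorem Md_energy {ε : ℝ} (hε : 0 < ε) : ∃ C : ℝ, 0 < C ∧ ∀ (A X S : ℝ) (γ : O → ℂ), 3 / 2 ≤ A → 0 ≤ S →
    (∀ x, Prim x → ‖YM γ X x‖ ≤ S * dn x ^ 2) →
    ∑' x : Pr, LW 1 A (nm x) * ‖Md γ X x‖ ^ 2 ≤ C * A ^ ε * (A ^ (2 / 3 : ℝ) * S ^ 2) := by
  obtain ⟨e, he0, he1, he2⟩ : ∃ e : ℝ, 0 < e ∧ e ≤ ε ∧ e ≤ 1 / 3 :=
    ⟨min ε (1 / 3), lt_min hε (by norm_num), min_le_left _ _, min_le_right _ _⟩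
  obtain ⟨C₁, hC₁, h₁⟩ := dn_succ_pow_le 3 he0
  obtain ⟨C₂, hC₂, h₂⟩ := tsum_TC_sq_le
  refine ⟨4 * C₁ * Real.exp 1 * (C₂ * 2), by positivity, fun A X S γ hA hS hY => ?_⟩
  have hA0 : 0 < A := by linarith
  obtain ⟨A', hA'⟩ : ∃ A' : ℝ, A' = A * Real.exp (1 ^ 2 * (e - 1 / 3)) := ⟨_, rfl⟩
  have a1 : 1 ≤ A' := by
    have := Real.add_one_le_exp (1 ^ 2 * (e - 1 / 3))
    rw [hA']; nlinarith
  have a2 : A' ≤ A := by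
    rw [hA']; exact mul_le_of_le_one_right hA0.le (Real.exp_le_one_iff.2 (by linarith))
  obtain ⟨hs, ht⟩ := h₂ 1 A' one_pos one_le_two a1
  obtain ⟨K, hK⟩ : ∃ K : ℝ, K = 4 * C₁ * Real.exp 1 * (A ^ (e - 1 / 3) * S ^ 2) := ⟨_, rfl⟩
  have hK0 : 0 ≤ K := by rw [hK]; positivity
  have key : ∀ x : Pr, LW 1 A (nm x) * ‖Md γ X x‖ ^ 2 ≤ K * (LW 1 A' (nm x) * ‖TC x‖ ^ 2) := by
    rintro ⟨x, hx⟩
    have hx' : Prim x := hx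
    have hn := nm_pos hx'.ne_zero
    have b0 := cP_pos
    have b1 := cP_le
    have b2 := n6_nonneg x
    have b3 := hY x hx'
    have b4 := h₁ x
    have b5 : n6 x ^ 2 * nm x ^ e = nm x ^ (e - 1 / 3) := by
      rw [n6, ← Real.rpow_natCast, ← Real.rpow_mul hn.le, ← Real.rpow_add hn]; congr 1; push_cast; ring
    have b6 := LW_mul_rpow (a := 1) one_pos hA0 hn (e - 1 / 3)
    rw [← hA'] at b6
    have b7 : Real.exp (1 ^ 2 * (e - 1 / 3) ^ 2 / 2) ≤ Real.exp 1 := Real.exp_le_exp.2 (by nlinarith)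
    have b8 := (LW_pos 1 A (nm x)).le
    have b9 := (LW_pos 1 A' (nm x)).le
    show LW 1 A (nm x) * ‖Md γ X x‖ ^ 2 ≤ K * (LW 1 A' (nm x) * ‖TC x‖ ^ 2)
    rw [Md, norm_mul, norm_mul, RCLike.norm_conj, Complex.norm_real, Real.norm_of_nonneg (by positivity)]
    calc LW 1 A (nm x) * (cP * n6 x * ‖TC x‖ * ‖YM γ X x‖) ^ 2
        ≤ LW 1 A (nm x) * (2 * n6 x * ‖TC x‖ * (S * dn x ^ 2)) ^ 2 := by gcongr
      _ = 4 * S ^ 2 * ‖TC x‖ ^ 2 * (LW 1 A (nm x) * n6 x ^ 2) * dn x ^ (3 + 1) := by ring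
      _ ≤ 4 * S ^ 2 * ‖TC x‖ ^ 2 * (LW 1 A (nm x) * n6 x ^ 2) * (C₁ * nm x ^ e) := by gcongr
      _ = 4 * C₁ * S ^ 2 * ‖TC x‖ ^ 2 * (LW 1 A (nm x) * (n6 x ^ 2 * nm x ^ e)) := by ring
      _ = 4 * C₁ * S ^ 2 * ‖TC x‖ ^ 2 * (A ^ (e - 1 / 3) * Real.exp (1 ^ 2 * (e - 1 / 3) ^ 2 / 2) *
            LW 1 A' (nm x)) := by rw [b5, b6]
      _ ≤ 4 * C₁ * S ^ 2 * ‖TC x‖ ^ 2 * (A ^ (e - 1 / 3) * Real.exp 1 * LW 1 A' (nm x)) := by gcongr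
      _ = _ := by rw [hK]; ring
  have c1 : A' ^ (2 / 3 : ℝ) ≤ A' := by
    simpa using Real.rpow_le_rpow_of_exponent_le a1 (show (2 / 3 : ℝ) ≤ 1 by norm_num)
  have c2 : A ^ (e - 1 / 3) * A ≤ A ^ ε * A ^ (2 / 3 : ℝ) := by
    rw [← Real.rpow_add_one hA0.ne', ← Real.rpow_add hA0]
    exact Real.rpow_le_rpow_of_exponent_le (by linarith) (by linarith)
  calc _ ≤ ∑' x : Pr, K * (LW 1 A' (nm x) * ‖TC x‖ ^ 2) :=
        (Summable.of_nonneg_of_le (fun x => mul_nonneg (LW_pos _ _ _).le (sq_nonneg _)) key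
          (hs.mul_left K)).tsum_le_tsum key (hs.mul_left K)
    _ = K * ∑' x : Pr, LW 1 A' (nm x) * ‖TC x‖ ^ 2 := tsum_mul_left
    _ ≤ K * (C₂ * (2 * A)) :=
        mul_le_mul_of_nonneg_left (ht.trans (mul_le_mul_of_nonneg_left (by linarith) hC₂.le)) hK0
    _ = 4 * C₁ * Real.exp 1 * (C₂ * 2) * S ^ 2 * (A ^ (e - 1 / 3) * A) := by rw [hK]; ring
    _ ≤ 4 * C₁ * Real.exp 1 * (C₂ * 2) * S ^ 2 * (A ^ ε * A ^ (2 / 3 : ℝ)) := by gcongr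
    _ = _ := by ring

theorem OD_nonneg {a A B X : ℝ} (ha : 0 ≤ a) (hA : 0 ≤ A) (hB : 0 ≤ B) (ν : ℕ) {φ₁ φ₂ : O → ℝ}
    (h1 : ∀ n, 0 ≤ φ₁ n) (h2 : ∀ n, 0 ≤ φ₂ n) : 0 ≤ OD a A B X ν φ₁ φ₂ := by
  unfold OD
  refine mul_nonneg (by positivity) (Finset.sum_nonneg fun l _ => ?_)
  have := h1 l
  have := h2 l
  have := nm_nonneg l
  positivity

/-- `EN ≤ ‖EN - MN‖ + ‖MN - ∑ W ‖Md‖²‖ + ∑ W ‖Md‖²`; `h1 ν`, `h2` with `a = 1` (replace their constants by `|C|`),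
`Md_energy`, `en_sq_le` (`j = 0`), `CR2_le`, `en_abs_le` (`j = 1`, `ε/2`); `A^ε, X^ε ≤ (A X)^ε`. -/
theorem qb_EN (h1 : StPOd) (h2 : StT3) (ν k : ℕ) {ε : ℝ} (hε : 0 < ε) : ∃ C : ℝ, 0 < C ∧
    ∀ (A B X S : ℝ) (γ : O → ℂ) (φ₁ φ₂ : O → ℝ), 3 / 2 ≤ A → 0 < B → 1 ≤ X → 0 ≤ S → Supp γ B X → Dv k γ →
      (∀ x, Prim x → ‖YM γ X x‖ ≤ S * dn x ^ 2) → (∀ n, 0 ≤ φ₁ n) → (∀ n, 0 ≤ φ₂ n) →
      RowBd (fun k => ¬ Cube k) γ X B (B ^ 2 / (1 ^ 2 * A)) ν φ₁ φ₂ →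
      EN 1 A γ X ≤ C * ((A * X) ^ ε * (A * X + A ^ (19 / 20 : ℝ) * B ^ (-(9 / 10) : ℝ) * X ^ 2 +
        √A * B ^ (-(1 / 3) : ℝ) * X ^ 2 + A ^ (2 / 3 : ℝ) * S ^ 2) + OD 1 A B X ν φ₁ φ₂) := by
  obtain ⟨C₁, h1⟩ := h1 ν
  obtain ⟨C₂, h2⟩ := h2
  obtain ⟨C₃, hC₃, h3⟩ := en_sq_le k 0 hε
  obtain ⟨C₄, hC₄, h4⟩ := CR2_le k hε
  obtain ⟨C₅, hC₅, h5⟩ := en_abs_le k 1 (half_pos hε)
  obtain ⟨C₆, hC₆, h6⟩ := Md_energy hε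
  refine ⟨|C₁| * (C₃ + C₄ + 1) + |C₂| * C₅ ^ 2 + C₆, by positivity,
    fun A B X S γ φ₁ φ₂ hA hB hX hS hγ hk hY hφ₁ hφ₂ hR => ?_⟩
  have hA1 : 1 ≤ A := by linarith
  have hA0 : 0 < A := by linarith
  have hX0 : 0 < X := by linarith
  have a1 := h1 A B X γ φ₁ φ₂ hA1 hB hγ hφ₁ hφ₂ hR
  have a2 := h2 1 A B X γ one_pos le_rfl hA1 hγ
  have a3 : N2 γ X ≤ C₃ * X ^ ε * X := by simpa [N2] using h3 γ B X hX hγ hk
  have a4 := h4 γ B X hX hγ hk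
  have a5 := h5 γ B X hB hX hγ hk
  have a6 := h6 A X S γ hA hS hY
  simp only [pow_one] at a5
  have hO := OD_nonneg zero_le_one hA0.le hB.le (X := X) ν hφ₁ hφ₂
  have hN := N2_nonneg γ X
  have hCR : 0 ≤ CR2 γ X := Finset.sum_nonneg fun g _ =>
    mul_nonneg (mul_nonneg (Real.rpow_nonneg (nm_nonneg g) _) (dn_nonneg g)) (sq_nonneg _)
  have hT : 0 ≤ ∑ b ∈ ball X, ‖γ b‖ * n6 b * dn b := Finset.sum_nonneg fun b _ =>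
    mul_nonneg (mul_nonneg (norm_nonneg _) (n6_nonneg b)) (dn_nonneg b)
  have p1 : X ^ ε ≤ (A * X) ^ ε := Real.rpow_le_rpow hX0.le (le_mul_of_one_le_left hX0.le hA1) hε.le
  have p2 : A ^ ε ≤ (A * X) ^ ε := Real.rpow_le_rpow hA0.le (le_mul_of_one_le_right hA0.le hX) hε.le
  have p3 : (X ^ (ε / 2)) ^ 2 = X ^ ε := by rw [sq, ← Real.rpow_add hX0, add_halves]
  have p4 : (B ^ (-(1 : ℝ) / 6)) ^ 2 = B ^ (-(1 / 3) : ℝ) := by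
    rw [sq, ← Real.rpow_add hB]; norm_num
  generalize (∑' x : Pr, LW 1 A (nm x) * ‖Md γ X x‖ ^ 2) = T at a2 a6
  have tri : EN 1 A γ X - T ≤ ‖(EN 1 A γ X : ℂ) - MN 1 A γ X‖ + ‖(T : ℂ) - MN 1 A γ X‖ := by
    refine le_trans ?_ (norm_sub_le _ _)
    rw [sub_sub_sub_cancel_right, ← Complex.ofReal_sub, Complex.norm_real]
    exact le_abs_self _
  have b1 : ‖(EN 1 A γ X : ℂ) - MN 1 A γ X‖ ≤ |C₁| * (A * (C₃ * (A * X) ^ ε * X) +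
      A ^ (19 / 20 : ℝ) * B ^ (-(9 / 10) : ℝ) * (C₄ * (A * X) ^ ε * X ^ 2) + OD 1 A B X ν φ₁ φ₂) := by
    refine a1.trans (mul_le_mul (le_abs_self _) ?_ (by positivity) (abs_nonneg _))
    gcongr
    · exact a3.trans (by gcongr)
    · exact a4.trans (by gcongr)
  have b2 : ‖(T : ℂ) - MN 1 A γ X‖ ≤
      |C₂| * C₅ ^ 2 * ((A * X) ^ ε * (√A * B ^ (-(1 / 3) : ℝ) * X ^ 2)) := by
    calc _ ≤ C₂ * √A * (∑ b ∈ ball X, ‖γ b‖ * n6 b * dn b) ^ 2 := a2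
      _ ≤ |C₂| * √A * (C₅ * X ^ (ε / 2) * (B ^ (-(1 : ℝ) / 6) * X)) ^ 2 := by
          gcongr
          exact le_abs_self _
      _ = |C₂| * C₅ ^ 2 * (X ^ ε * (√A * B ^ (-(1 / 3) : ℝ) * X ^ 2)) := by rw [← p3, ← p4]; ring
      _ ≤ _ := by gcongr
  have b3 : T ≤ C₆ * ((A * X) ^ ε * (A ^ (2 / 3 : ℝ) * S ^ 2)) := by
    rw [← mul_assoc]; exact a6.trans (by gcongr)
  obtain ⟨u₁, hu₁⟩ : ∃ u, u = (A * X) ^ ε * (A * X) := ⟨_, rfl⟩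
  obtain ⟨u₂, hu₂⟩ : ∃ u, u = (A * X) ^ ε * (A ^ (19 / 20 : ℝ) * B ^ (-(9 / 10) : ℝ) * X ^ 2) := ⟨_, rfl⟩
  obtain ⟨u₃, hu₃⟩ : ∃ u, u = (A * X) ^ ε * (√A * B ^ (-(1 / 3) : ℝ) * X ^ 2) := ⟨_, rfl⟩
  obtain ⟨u₄, hu₄⟩ : ∃ u, u = (A * X) ^ ε * (A ^ (2 / 3 : ℝ) * S ^ 2) := ⟨_, rfl⟩
  have q1 : 0 ≤ u₁ := by rw [hu₁]; positivity
  have q2 : 0 ≤ u₂ := by rw [hu₂]; positivity
  have q3 : 0 ≤ u₃ := by rw [hu₃]; positivity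
  have q4 : 0 ≤ u₄ := by rw [hu₄]; positivity
  generalize OD 1 A B X ν φ₁ φ₂ = u₅ at hO b1 ⊢
  calc EN 1 A γ X ≤ |C₁| * (C₃ * u₁ + C₄ * u₂ + u₅) + |C₂| * C₅ ^ 2 * u₃ + C₆ * u₄ := by
        rw [hu₁, hu₂, hu₃, hu₄]; linarith
    _ ≤ |C₁| * (C₃ * (u₁ + u₂ + u₃ + u₄ + u₅) + C₄ * (u₁ + u₂ + u₃ + u₄ + u₅) +
          (u₁ + u₂ + u₃ + u₄ + u₅)) + |C₂| * C₅ ^ 2 * (u₁ + u₂ + u₃ + u₄ + u₅) +
          C₆ * (u₁ + u₂ + u₃ + u₄ + u₅) := by gcongr <;> linarith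
    _ = _ := by rw [hu₁, hu₂, hu₃, hu₄]; ring

/-- `RS` is additive in `γ`; `‖u - v‖² ≤ 2 ‖u‖² + 2 ‖v‖²` -/
theorem rowBd_sub {ok : O → Prop} {γ γ' : O → ℂ} {X B K : ℝ} {ν : ℕ} {φ₁ φ₂ ψ₁ ψ₂ : O → ℝ}
    (h : RowBd ok γ X B K ν φ₁ φ₂) (h' : RowBd ok γ' X B K ν ψ₁ ψ₂) :
    RowBd ok (fun b => γ b - γ' b) X B K ν (fun n => 2 * (φ₁ n + ψ₁ n)) fun n => 2 * (φ₂ n + ψ₂ n) := by
  intro l g U z S h1 h2 h3 h4 h5 h6 h7
  have a1 := h l g U z S h1 h2 h3 h4 h5 h6 h7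
  have a2 := h' l g U z S h1 h2 h3 h4 h5 h6 h7
  have e : ∀ k, RS (fun b => γ b - γ' b) X B l g k z = RS γ X B l g k z - RS γ' X B l g k z := by
    intro k
    unfold RS
    rw [← Finset.sum_sub_distrib]
    exact Finset.sum_congr rfl fun n _ => by ring
  have a3 : ∑ k ∈ S, ‖RS (fun b => γ b - γ' b) X B l g k z‖ ^ 2 ≤
      2 * ∑ k ∈ S, ‖RS γ X B l g k z‖ ^ 2 + 2 * ∑ k ∈ S, ‖RS γ' X B l g k z‖ ^ 2 := by
    rw [Finset.mul_sum, Finset.mul_sum, ← Finset.sum_add_distrib]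
    refine Finset.sum_le_sum fun k _ => ?_
    rw [e]
    have b1 := norm_sub_le (RS γ X B l g k z) (RS γ' X B l g k z)
    have b2 := pow_le_pow_left₀ (norm_nonneg _) b1 2
    nlinarith [sq_nonneg (‖RS γ X B l g k z‖ - ‖RS γ' X B l g k z‖)]
  refine a3.trans (le_trans (add_le_add (mul_le_mul_of_nonneg_left a1 zero_le_two)
    (mul_le_mul_of_nonneg_left a2 zero_le_two)) (le_of_eq ?_))
  ring

theorem OD_two_add (a A B X : ℝ) (ν : ℕ) (φ₁ φ₂ ψ₁ ψ₂ : O → ℝ) :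
    OD a A B X ν (fun n => 2 * (φ₁ n + ψ₁ n)) (fun n => 2 * (φ₂ n + ψ₂ n)) =
      2 * (OD a A B X ν φ₁ φ₂ + OD a A B X ν ψ₁ ψ₂) := by
  unfold OD
  rw [← mul_add, ← Finset.sum_add_distrib, mul_left_comm 2, Finset.mul_sum _ _ 2]
  congr 1
  exact Finset.sum_congr rfl fun l _ => by ring

end Crest.Agent.R12.QB
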