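import Crest.Agent.R12.QB.Cv

/-!
Row 12, block QB: a cut plain sum with the model weight, a divisibility condition and a mask.
-/

set_option autoImplicit false

namespace Crest.Agent.R12.QB

open Crest.Agent.R17
open scoped ComplexConjugate

open Classical in
/-- the sum over `n = h y`, `y` prime to `m` -/
noncomputable def Pc (l : ℤ) (M t R Z : ℝ) (h m : O) : ℂ :=
  ∑ y ∈ pball Z, if IsCoprime y m then plc l M t R (h * y) * (n6 (h * y) : ℂ) else 0

/-- the constant of the shift -/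
noncomputable def plain_k (t : ℝ) : ℂ :=
  Complex.exp (((1 / 72 : ℝ) : ℂ) + Complex.I * ((-(t / 6) : ℝ) : ℂ))

theorem plain_k_le (t : ℝ) : ‖plain_k t‖ ≤ 2 := by
  rw [plain_k, Complex.norm_exp]
  have : (((1 / 72 : ℝ) : ℂ) + Complex.I * ((-(t / 6) : ℝ) : ℂ)).re = 1 / 72 := by
    rw [Complex.add_re, Complex.ofReal_re, Complex.mul_re, Complex.I_re, Complex.I_im,
      Complex.ofReal_im]
    ring
  rw [this]
  have h1 := Real.exp_bound_div_one_sub_of_interval (x := 1 / 72) (by norm_num) (by norm_num)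
  refine h1.trans ?_
  norm_num

theorem plain_term (l : ℤ) {M : ℝ} (hM : 0 < M) (t : ℝ) {h y : O} (hh : h ≠ 0) (hy : y ≠ 0) :
    pl l M t (h * y) * (n6 (h * y) : ℂ) =
      (al h ^ l * ((M ^ (-(1 : ℝ) / 6) : ℝ) : ℂ) * plain_k t) *
        (al y ^ l * LN 1 (M / nm h * Real.exp (-(1 : ℝ) / 6)) t (nm y)) := by
  have hH := nm_pos hh
  have hy0 := nm_pos hy
  have hM1 : 0 < M / nm h := by positivity
  have e := LN_mul_cpow one_pos hM1 hy0 t ((-(1 : ℝ) / 6 : ℝ) : ℂ)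
  rw [Complex.ofReal_re, Complex.ofReal_im, ← Complex.ofReal_cpow hy0.le,
    ← Complex.ofReal_cpow hM1.le, add_zero] at e
  have e1 : (1 : ℝ) ^ 2 * (-(1 : ℝ) / 6) ^ 2 / 2 = 1 / 72 := by norm_num
  have e2 : (1 : ℝ) ^ 2 * (-(1 : ℝ) / 6) * t = -(t / 6) := by ring
  have e3 : (1 : ℝ) ^ 2 * (-(1 : ℝ) / 6) = -(1 : ℝ) / 6 := by norm_num
  rw [e1, e2, e3] at e
  have e4 : M ^ (-(1 : ℝ) / 6) = nm h ^ (-(1 : ℝ) / 6) * (M / nm h) ^ (-(1 : ℝ) / 6) := by
    rw [← Real.mul_rpow hH.le hM1.le, mul_div_cancel₀ _ hH.ne']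
  rw [pl, al_mul, mul_zpow, n6_mul, nm_mul, LN_mul_arg, e4, plain_k]
  unfold n6
  push_cast at e ⊢
  linear_combination (al h ^ l * al y ^ l * ((nm h ^ (-(1 : ℝ) / 6) : ℝ) : ℂ)) * e

theorem plain_fin (f : O → ℂ) (Z : ℝ) (hf : ∀ y, Prim y → f y ≠ 0 → nm y ≤ Z) :
    ∑ y ∈ pball Z, f y = ∑' y : Pr, f y := by
  classical
  rw [tsum_Pr_eq, tsum_eq_sum (s := pball Z)]
  · exact Finset.sum_congr rfl fun y hy => by rw [if_pos (mem_pball.1 hy).2]
  · intro y hy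
    split_ifs with hp
    · by_contra h0
      exact hy (mem_pball.2 ⟨hf y hp h0, hp⟩)
    · rfl

theorem plain_coef (l : ℤ) (n : O) : ‖al n ^ l * (n6 n : ℂ)‖ ≤ 1 := by
  rw [norm_mul, Complex.norm_real, Real.norm_of_nonneg (n6_nonneg n)]
  exact mul_le_one₀ (bla_norm_le n l) (n6_nonneg n) (n6_le_one n)

/-- The main term is `M^(5/6)` times a number independent of `M`.
`pl l M t (h y) · n6 (h y) = al h ^ l · M^(-1/6) · κ · (al y ^ l · LN 1 M' t (N y))` with `M' = M / N h · exp (-1/6)`,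
`κ = exp (1/72 - i t/6)`, `‖κ‖ ≤ 2` (`al_mul`, `mul_zpow`, `nm_mul`, `n6_mul`, `LN_mul_arg`, `LN_mul_cpow` with `a = 1`, `s = -1/6`;
`(N h)^(-1/6) (M / N h)^(-1/6) = M^(-1/6)`).  `plain_asymp l` at `M'` with mask `m`; so
`w = if l = 0 then κ · rho0 · Phi m · exp (-1/6) / N h · LNt 1 (1 + I t) else 0` (`norm_LNt`, `Phi_le_one`; `al h ^ 0 = 1`).
The finite cut sum differs from the series `∑' y : Pr` by the terms with `N (h y) ≤ M / R` or `> M R` (all `y` with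
`plc ≠ 0` lie in `pball Z`; `tsum_Pr_eq`/`tsum_eq_sum`, or write the finite sum as a `tsum` over `Pr` of the cut terms):
`sum_LN_O_negl` (`a = 1`, `θ = 0`, `A = 2`, centre `M / N h`, `Z := Y`, `φ = Subtype.val`, `n6 ≤ 1`) gives
`C (M / N h) Y⁻² ≤ C Y⁻¹ ≤ C M^(-1/6)`; `1 ≤ dn m`. -/
theorem Pc_asymp (l : ℤ) {ε : ℝ} (hε : 0 < ε) : ∃ C : ℝ, 0 < C ∧ ∀ (t : ℝ) (h m : O), Prim h → m ≠ 0 →
    ∃ w : ℂ, ‖w‖ ≤ C / nm h ∧ ∀ Y M R Z : ℝ, 1 ≤ M → M ≤ Y → Y ^ ε ≤ R → M * R ≤ Z →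
      ‖Pc l M t R Z h m - ((M ^ (5 / 6 : ℝ) : ℝ) : ℂ) * w‖ ≤
        C * dn m * (1 + |t|) * (M ^ (-(1 : ℝ) / 6) * (√(M / nm h) + 1)) := by
  classical
  obtain ⟨C₁, hC₁, H₁⟩ := plain_asymp l
  obtain ⟨C₂, hC₂, H₂⟩ := sum_LN_O_negl one_pos hε 0 2
  obtain ⟨C₃, -, H₃⟩ := sum_LN_O one_pos 0
  have hρ := rho0_pos
  set C₀ : ℝ := 2 * rho0 * (√(2 * Real.pi) * Real.exp (1 / 2)) with hC₀
  have hC₀0 : 0 < C₀ := by rw [hC₀]; have := Real.pi_pos; positivity
  refine ⟨C₀ + 2 * C₁ + C₂, by positivity, fun t h m hh hm => ?_⟩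
  have hH1 := one_le_nm hh.ne_zero
  have hH : 0 < nm h := by linarith
  have he6 : Real.exp (-(1 : ℝ) / 6) ≤ 1 := Real.exp_le_one_iff.2 (by norm_num)
  have he0 := Real.exp_pos (-(1 : ℝ) / 6)
  refine ⟨if l = 0 then plain_k t * ((rho0 * Phi m * (Real.exp (-(1 : ℝ) / 6) / nm h) : ℝ) : ℂ) *
    LNt 1 (1 + Complex.I * t) else 0, ?_, fun Y M R Z hM hMY hR hZ => ?_⟩
  · have hb : C₀ / nm h ≤ (C₀ + 2 * C₁ + C₂) / nm h := by gcongr; linarith
    refine le_trans ?_ hb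
    split_ifs
    swap
    · rw [norm_zero]; positivity
    have hP := Phi_pos m
    have hP1 := Phi_le_one m
    have hL : ‖LNt 1 (1 + Complex.I * t)‖ ≤ √(2 * Real.pi) * Real.exp (1 / 2) := by
      rw [norm_LNt zero_le_one]
      have a1 : (1 + Complex.I * t).re = 1 := by simp
      have a2 : Real.exp (-(1 ^ 2 / 2) * (1 + Complex.I * t).im ^ 2) ≤ 1 :=
        Real.exp_le_one_iff.2 (by nlinarith [sq_nonneg (1 + Complex.I * t).im])
      rw [a1]
      calc _ ≤ √(2 * Real.pi) * 1 * Real.exp (1 ^ 2 * 1 ^ 2 / 2) * 1 := by gcongr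
        _ = _ := by norm_num
    rw [norm_mul, norm_mul, Complex.norm_real, Real.norm_of_nonneg (by positivity)]
    calc ‖plain_k t‖ * (rho0 * Phi m * (Real.exp (-(1 : ℝ) / 6) / nm h)) * ‖LNt 1 (1 + Complex.I * t)‖
        ≤ 2 * (rho0 * 1 * (1 / nm h)) * (√(2 * Real.pi) * Real.exp (1 / 2)) := by
          have := plain_k_le t
          gcongr
      _ = C₀ / nm h := by rw [hC₀]; ring
  have hM0 : 0 < M := by linarith
  have hY1 : 1 ≤ Y := hM.trans hMY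
  have hY0 : 0 < Y := by linarith
  have hYe : 0 < Y ^ ε := Real.rpow_pos_of_pos hY0 _
  have hM1 : 0 < M / nm h := by positivity
  have hM1' : M / nm h ≤ M := div_le_self hM0.le hH1
  -- the full and the tail coefficients
  set c₁ : Pr → ℂ := fun y => if IsCoprime (y : O) m then al (h * y) ^ l * (n6 (h * y) : ℂ) else 0 with hc₁
  set c₂ : Pr → ℂ := fun y => if IsCoprime (y : O) m ∧ ¬ (M / R < nm (h * y) ∧ nm (h * y) ≤ M * R) then
    al (h * y) ^ l * (n6 (h * y) : ℂ) else 0 with hc₂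
  have b₁ : ∀ y : Pr, (y : O) ≠ 0 → ‖c₁ y‖ ≤ 1 * nm (y : O) ^ (0 : ℝ) := fun y _ => by
    rw [Real.rpow_zero, mul_one, hc₁]
    beta_reduce
    split_ifs
    · exact plain_coef l _
    · simp
  have b₂ : ∀ y : Pr, (y : O) ≠ 0 → ‖c₂ y‖ ≤ 1 * nm (y : O) ^ (0 : ℝ) := fun y _ => by
    rw [Real.rpow_zero, mul_one, hc₂]
    beta_reduce
    split_ifs
    · exact plain_coef l _
    · simp
  have s₁ := (H₃ (fun y : Pr => (y : O)) c₁ 1 (M / nm h) t Subtype.val_injective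
    (fun y h0 => absurd h0 (Pr_prim y).ne_zero) b₁ zero_le_one hM1).1.of_norm
  have s₂' := (H₃ (fun y : Pr => (y : O)) c₂ 1 (M / nm h) t Subtype.val_injective
    (fun y h0 => absurd h0 (Pr_prim y).ne_zero) b₂ zero_le_one hM1).1
  have t₂ := H₂ (fun y : Pr => (y : O)) c₂ 1 (M / nm h) t Y Subtype.val_injective
    (fun y h0 => absurd h0 (Pr_prim y).ne_zero) b₂ zero_le_one hM1 hY1 (fun y hy => by
      have hc : ¬ (M / R < nm (h * y) ∧ nm (h * y) ≤ M * R) := by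
        intro hc
        apply hy
        rw [hc₂]
        exact if_neg fun h' => h'.2 hc
      rw [nm_mul] at hc
      rcases not_and_or.1 hc with h1 | h1
      · left
        rw [Real.rpow_neg hY0.le, ← div_eq_mul_inv, div_div, mul_comm (nm h), ← div_div,
          le_div_iff₀ hH, mul_comm]
        exact (not_lt.1 h1).trans (div_le_div_of_nonneg_left hM0.le hYe hR)
      · right
        rw [div_mul_eq_mul_div, div_le_iff₀ hH, mul_comm (nm (y : O))]
        exact (mul_le_mul_of_nonneg_left hR hM0.le).trans (not_le.1 h1).le)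
  have ePc : Pc l M t R Z h m = ∑' y : Pr, c₁ y * LN 1 (M / nm h) t (nm (y : O)) -
      ∑' y : Pr, c₂ y * LN 1 (M / nm h) t (nm (y : O)) := by
    rw [Pc, plain_fin _ Z, ← s₁.tsum_sub s₂'.of_norm]
    · refine tsum_congr fun y => ?_
      rw [hc₁, hc₂]
      beta_reduce
      unfold plc
      rw [pl, ← LN_mul_arg, ← nm_mul]
      by_cases h1 : IsCoprime (y : O) m
      · by_cases h2 : M / R < nm (h * y) ∧ nm (h * y) ≤ M * R
        · rw [if_pos h1, if_pos h1, if_pos h2, if_neg fun h' => h'.2 h2]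
          ring
        · rw [if_pos h1, if_pos h1, if_neg h2, if_pos ⟨h1, h2⟩]
          ring
      · rw [if_neg h1, if_neg h1, if_neg fun h' => h1 h'.1]
        ring
    · intro y hy h0
      have h1 : plc l M t R (h * y) ≠ 0 := by
        intro h'
        apply h0
        rw [h']
        simp
      have h2 := (plc_ne_zero h1).2
      rw [nm_mul] at h2
      have := nm_nonneg y
      nlinarith
  set K : ℂ := al h ^ l * ((M ^ (-(1 : ℝ) / 6) : ℝ) : ℂ) * plain_k t with hK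
  have eT : ∑' y : Pr, c₁ y * LN 1 (M / nm h) t (nm (y : O)) = K * ∑' y : Pr,
      if IsCoprime (y : O) m then al y ^ l * LN 1 (M / nm h * Real.exp (-(1 : ℝ) / 6)) t (nm y) else 0 := by
    rw [← tsum_mul_left]
    refine tsum_congr fun y => ?_
    rw [hc₁]
    beta_reduce
    split_ifs
    · rw [hK, ← plain_term l hM0 t hh.ne_zero (Pr_prim y).ne_zero, pl, nm_mul, LN_mul_arg]
      ring
    · simp
  have hM6 : 0 < M ^ (-(1 : ℝ) / 6) := Real.rpow_pos_of_pos hM0 _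
  have hKle : ‖K‖ ≤ 2 * M ^ (-(1 : ℝ) / 6) := by
    rw [hK, norm_mul, norm_mul, Complex.norm_real, Real.norm_of_nonneg hM6.le]
    calc _ ≤ 1 * M ^ (-(1 : ℝ) / 6) * 2 := by
          have := plain_k_le t
          have := bla_norm_le h l
          gcongr
      _ = _ := by ring
  have emain : ((M ^ (5 / 6 : ℝ) : ℝ) : ℂ) * (if l = 0 then plain_k t *
      ((rho0 * Phi m * (Real.exp (-(1 : ℝ) / 6) / nm h) : ℝ) : ℂ) * LNt 1 (1 + Complex.I * t) else 0) =
      K * (if l = 0 then ((rho0 * Phi m * (M / nm h * Real.exp (-(1 : ℝ) / 6)) : ℝ) : ℂ) *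
        LNt 1 (1 + Complex.I * t) else 0) := by
    split_ifs with hl
    · have e5 : M ^ (5 / 6 : ℝ) = M ^ (-(1 : ℝ) / 6) * M := by
        rw [← Real.rpow_add_one hM0.ne']
        norm_num
      rw [hK, hl, zpow_zero, e5]
      push_cast
      ring
    · simp
  have hA := H₁ 1 (M / nm h * Real.exp (-(1 : ℝ) / 6)) t m one_pos le_rfl (by positivity) hm
  have hd := one_le_dn hm
  have ht := abs_nonneg t
  have hsq : √(M / nm h * Real.exp (-(1 : ℝ) / 6)) ≤ √(M / nm h) :=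
    Real.sqrt_le_sqrt (mul_le_of_le_one_right hM1.le he6)
  have hs0 := Real.sqrt_nonneg (M / nm h)
  have tail : ‖∑' y : Pr, c₂ y * LN 1 (M / nm h) t (nm (y : O))‖ ≤ C₂ * M ^ (-(1 : ℝ) / 6) := by
    refine (norm_tsum_le_tsum_norm s₂').trans (t₂.trans ?_)
    rw [zero_add, Real.rpow_one, mul_one, mul_assoc]
    refine mul_le_mul_of_nonneg_left ?_ hC₂.le
    calc M / nm h * Y ^ (-2 : ℝ) ≤ M * M ^ (-2 : ℝ) :=
          mul_le_mul hM1' (Real.rpow_le_rpow_of_nonpos hM0 hMY (by norm_num))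
            (Real.rpow_nonneg hY0.le _) hM0.le
      _ = M ^ (-2 + 1 : ℝ) := by rw [Real.rpow_add_one hM0.ne', mul_comm]
      _ ≤ M ^ (-(1 : ℝ) / 6) := Real.rpow_le_rpow_of_exponent_le hM (by norm_num)
  rw [ePc, eT, emain, sub_right_comm, ← mul_sub]
  refine (norm_sub_le _ _).trans ?_
  rw [norm_mul]
  set W : ℝ := dn m * (1 + |t|) * (M ^ (-(1 : ℝ) / 6) * (√(M / nm h) + 1)) with hW
  have hW1 : M ^ (-(1 : ℝ) / 6) ≤ W := by
    rw [hW]
    calc M ^ (-(1 : ℝ) / 6) = 1 * 1 * (M ^ (-(1 : ℝ) / 6) * 1) := by ring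
      _ ≤ _ := by gcongr <;> linarith
  have m1 := mul_le_mul hKle (hA.trans (by gcongr : _ ≤ C₁ * dn m * (1 + |t|) * (√(M / nm h) + 1)))
    (norm_nonneg _) (by positivity)
  have m2 : 2 * M ^ (-(1 : ℝ) / 6) * (C₁ * dn m * (1 + |t|) * (√(M / nm h) + 1)) = 2 * C₁ * W := by
    rw [hW]; ring
  have m3 := mul_le_mul_of_nonneg_left hW1 hC₂.le
  have m4 : 0 ≤ C₀ * W := mul_nonneg hC₀0.le (hM6.le.trans hW1)
  have m5 : (C₀ + 2 * C₁ + C₂) * dn m * (1 + |t|) * (M ^ (-(1 : ℝ) / 6) * (√(M / nm h) + 1)) =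
      C₀ * W + 2 * C₁ * W + C₂ * W := by
    rw [hW]; ring
  rw [m5]
  linarith

end Crest.Agent.R12.QB
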