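import Crest.Agent.R12.QB.Plain

/-!
Row 12, block QB: two plain variables with a squarefree product; the main terms of the two centrings cancel.
-/

set_option autoImplicit false

namespace Crest.Agent.R12.QB

open Crest.Agent.R17
open scoped ComplexConjugate

open Classical in
/-- two plain variables, `g ∣ n₂ n₃` -/
noncomputable def PB (l : ℤ) (M₂ t₂ M₃ t₃ R Z : ℝ) (g m : O) : ℂ :=
  ∑ n₂ ∈ pball Z, ∑ n₃ ∈ pball Z, if g ∣ n₂ * n₃ ∧ IsCoprime (n₂ * n₃) m then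
    plc l M₂ t₂ R n₂ * (n6 n₂ : ℂ) * (plc l M₃ t₃ R n₃ * (n6 n₃ : ℂ)) else 0

open Classical in
/-- two plain variables, `n₂ n₃` squarefree -/
noncomputable def VS (l : ℤ) (M₂ t₂ M₃ t₃ R Z : ℝ) (m : O) : ℂ :=
  ∑ n₂ ∈ pball Z, ∑ n₃ ∈ pball Z, if Squarefree (n₂ * n₃) ∧ IsCoprime (n₂ * n₃) m then
    plc l M₂ t₂ R n₂ * (n6 n₂ : ℂ) * (plc l M₃ t₃ R n₃ * (n6 n₃ : ℂ)) else 0

open Classical in
/-- sort by `h = gcd (g, n₂)`: `Prim.exists_gcd`, `gcd_unique`, `IsCoprime.dvd_of_dvd_mul_left`; `Finset.sum_eq_single`. -/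
theorem vm_dvd_split {g n₂ n₃ : O} (hg : Prim g) (h2 : Prim n₂) :
    (if g ∣ n₂ * n₃ then (1 : ℂ) else 0) =
      ∑ p ∈ anti g, if (∃ y, n₂ = p.1 * y ∧ IsCoprime y p.2) ∧ p.2 ∣ n₃ then 1 else 0 := by
  have _ := h2
  obtain ⟨h, g', y, hh, hg', e1, e2, hc⟩ := hg.exists_gcd n₂
  rw [Finset.sum_eq_single_of_mem (h, g') (mem_anti.2 ⟨hh, hg', e1.symm⟩)]
  · refine if_congr ?_ rfl rfl
    rw [e1, e2, mul_assoc, mul_dvd_mul_iff_left hh.ne_zero]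
    exact ⟨fun h1 => ⟨⟨y, rfl, hc.symm⟩, hc.dvd_of_dvd_mul_left h1⟩, fun h1 => h1.2.mul_left y⟩
  · intro p hp hne
    obtain ⟨p1, -, p3⟩ := mem_anti.1 hp
    refine if_neg ?_
    rintro ⟨⟨y', e3, hc'⟩, -⟩
    obtain ⟨k1, k2, -⟩ := gcd_unique p1 hh (p3.trans e1) (e3.symm.trans e2) hc'.symm hc
    exact hne (Prod.ext k1 k2)

open Classical in
/-- reindexing a sum over multiples: `n = h y` (`Prim.exists_mul`, `Finset.sum_bij`/`sum_image`/`sum_subset`) -/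
theorem vm_sum_mul {h : O} (hh : Prim h) {Z : ℝ} (F : O → ℂ) (hF : ∀ n, F n ≠ 0 → nm n ≤ Z) (q : O → Prop) :
    (∑ n ∈ pball Z, if ∃ y, n = h * y ∧ q y then F n else 0) =
      ∑ y ∈ pball Z, if q y then F (h * y) else 0 := by
  symm
  refine Finset.sum_bij_ne_zero (fun y _ _ => h * y) ?_ ?_ ?_ ?_
  · intro y hy h0
    exact mem_pball.2 ⟨hF _ fun e => h0 (by simp [e]), hh.mul (mem_pball.1 hy).2⟩
  · intro y _ _ y' _ _ e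
    exact mul_left_cancel₀ hh.ne_zero e
  · intro n hn h0
    obtain ⟨⟨y, rfl, hq⟩, h1⟩ := ite_ne_right_iff.1 h0
    obtain ⟨h2, h3⟩ := mem_pball.1 hn
    exact ⟨y, mem_pball.2 ⟨(nm_le_of_dvd (dvd_mul_left y h) h3.ne_zero).trans h2, hh.of_mul h3⟩,
      by rwa [if_pos hq], rfl⟩
  · intro y _ h0
    obtain ⟨hq, -⟩ := ite_ne_right_iff.1 h0
    rw [if_pos hq, if_pos ⟨y, rfl, hq⟩]

open Classical in
/-- `vm_dvd_split`, `vm_sum_mul` in both variables.  If `g ∣ n₂ n₃` and `n₂ n₃` is prime to `m` then `g` is prime to `m`;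
if `g = h h'` is prime to `m`, then `h y · h' y'` is prime to `m` iff `y` and `y'` are (`IsCoprime.mul_left_iff`,
`IsCoprime.mul_right_iff`). -/
theorem PB_eq (l : ℤ) {M₂ M₃ R Z : ℝ} (t₂ t₃ : ℝ) {g : O} (m : O) (hg : Prim g) (h2 : M₂ * R ≤ Z)
    (h3 : M₃ * R ≤ Z) : PB l M₂ t₂ M₃ t₃ R Z g m = if IsCoprime g m then
      ∑ p ∈ anti g, Pc l M₂ t₂ R Z p.1 (m * p.2) * Pc l M₃ t₃ R Z p.2 m else 0 := by
  unfold PB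
  split_ifs with hc
  · have e : ∀ p ∈ anti g, Pc l M₂ t₂ R Z p.1 (m * p.2) * Pc l M₃ t₃ R Z p.2 m =
        ∑ n₂ ∈ pball Z, ∑ n₃ ∈ pball Z,
          (if ∃ y, n₂ = p.1 * y ∧ IsCoprime y (m * p.2) then plc l M₂ t₂ R n₂ * (n6 n₂ : ℂ) else 0) *
          (if ∃ y, n₃ = p.2 * y ∧ IsCoprime y m then plc l M₃ t₃ R n₃ * (n6 n₃ : ℂ) else 0) := by
      intro p hp
      obtain ⟨p1, p2, -⟩ := mem_anti.1 hp
      rw [← Finset.sum_mul_sum]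
      congr 1
      · convert (vm_sum_mul p1 (fun n => plc l M₂ t₂ R n * (n6 n : ℂ))
          (fun n hn => (plc_ne_zero (left_ne_zero_of_mul hn)).2.trans h2) _).symm
        rfl
      · convert (vm_sum_mul p2 (fun n => plc l M₃ t₃ R n * (n6 n : ℂ))
          (fun n hn => (plc_ne_zero (left_ne_zero_of_mul hn)).2.trans h3) _).symm
        rfl
    rw [Finset.sum_congr rfl e, Finset.sum_comm (s := anti g)]
    refine Finset.sum_congr rfl fun n₂ hn₂ => ?_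
    rw [Finset.sum_comm (s := anti g)]
    refine Finset.sum_congr rfl fun n₃ _ => ?_
    rw [← one_mul (plc l M₂ t₂ R n₂ * (n6 n₂ : ℂ) * _), ← ite_zero_mul_ite_zero,
      vm_dvd_split hg (mem_pball.1 hn₂).2, Finset.sum_mul]
    refine Finset.sum_congr rfl fun p hp => ?_
    obtain ⟨-, -, p3⟩ := mem_anti.1 hp
    rw [← p3, IsCoprime.mul_left_iff] at hc
    rw [ite_zero_mul_ite_zero, ite_zero_mul_ite_zero, one_mul]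
    refine if_congr ⟨?_, ?_⟩ rfl rfl
    · rintro ⟨⟨⟨y, rfl, k1⟩, y', rfl⟩, k2⟩
      simp only [IsCoprime.mul_left_iff] at k2
      exact ⟨⟨y, rfl, k2.1.2.mul_right k1⟩, y', rfl, k2.2.2⟩
    · rintro ⟨⟨y, rfl, k1⟩, y', rfl, k2⟩
      rw [IsCoprime.mul_right_iff] at k1
      exact ⟨⟨⟨y, rfl, k1.2⟩, dvd_mul_right _ _⟩, (hc.1.mul_left k1.1).mul_left (hc.2.mul_left k2)⟩
  · exact Finset.sum_eq_zero fun n₂ _ => Finset.sum_eq_zero fun n₃ _ =>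
      if_neg fun h => hc (h.2.of_isCoprime_of_dvd_left h.1)

theorem vmb_e {μ M x : ℝ} (hμ : 1 ≤ μ) (h : μ ≤ M) (hx : 1 ≤ x) :
    M ^ (-(1 : ℝ) / 6) * (√(M / x) + 1) ≤ M ^ (5 / 6 : ℝ) * ((√μ)⁻¹ * (√x)⁻¹ + (√μ)⁻¹ ^ 2) := by
  have hM : 0 < M := by linarith
  have hμ0 : 0 < μ := by linarith
  have e1 : M ^ (-(1 : ℝ) / 6) = M ^ (5 / 6 : ℝ) * M⁻¹ := by
    rw [← Real.rpow_neg_one, ← Real.rpow_add hM]
    norm_num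
  have hs : 0 < √M := Real.sqrt_pos.2 hM
  have hsx : 0 < √x := Real.sqrt_pos.2 (by linarith)
  have e2 : M⁻¹ * √(M / x) = (√M)⁻¹ * (√x)⁻¹ := by
    rw [Real.sqrt_div hM.le]
    nth_rewrite 1 [← Real.mul_self_sqrt hM.le]
    field_simp
  have h1 : (√M)⁻¹ ≤ (√μ)⁻¹ := inv_anti₀ (Real.sqrt_pos.2 hμ0) (Real.sqrt_le_sqrt h)
  have h2 : M⁻¹ ≤ (√μ)⁻¹ ^ 2 := by
    rw [inv_pow, Real.sq_sqrt hμ0.le]
    exact inv_anti₀ hμ0 h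
  rw [e1, mul_assoc, mul_add, e2, mul_one]
  refine mul_le_mul_of_nonneg_left (add_le_add ?_ h2) (Real.rpow_nonneg hM.le _)
  exact mul_le_mul_of_nonneg_right h1 (inv_pos.2 hsx).le

theorem vmb_poly {σ u v : ℝ} (hσ : 0 ≤ σ) (hσ1 : σ ≤ 1) (hu : 0 ≤ u) (hu1 : u ≤ 1) (hv : 0 ≤ v)
    (hv1 : v ≤ 1) :
    u ^ 2 * (σ * v + σ ^ 2) + (σ * u + σ ^ 2) * v ^ 2 + (σ * u + σ ^ 2) * (σ * v + σ ^ 2) ≤
      6 * (σ * (u * v) + σ ^ 2) := by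
  have a0 : 0 ≤ σ * (u * v) := by positivity
  have b0 : 0 ≤ σ ^ 2 := by positivity
  have a1 : σ * (u * v) * u ≤ σ * (u * v) := mul_le_of_le_one_right a0 hu1
  have a2 : σ * (u * v) * v ≤ σ * (u * v) := mul_le_of_le_one_right a0 hv1
  have a3 : σ * (u * v) * σ ≤ σ * (u * v) := mul_le_of_le_one_right a0 hσ1
  have b1 : σ ^ 2 * u ^ 2 ≤ σ ^ 2 := mul_le_of_le_one_right b0 (pow_le_one₀ hu hu1)
  have b2 : σ ^ 2 * v ^ 2 ≤ σ ^ 2 := mul_le_of_le_one_right b0 (pow_le_one₀ hv hv1)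
  have b3 : σ ^ 2 * (σ * u) ≤ σ ^ 2 := mul_le_of_le_one_right b0 (mul_le_one₀ hσ1 hu hu1)
  have b4 : σ ^ 2 * (σ * v) ≤ σ ^ 2 := mul_le_of_le_one_right b0 (mul_le_one₀ hσ1 hv hv1)
  have b5 : σ ^ 2 * σ ^ 2 ≤ σ ^ 2 := mul_le_of_le_one_right b0 (pow_le_one₀ hσ hσ1)
  linarith

/-- real-variable bookkeeping for `PB_diff`: `x = N h`, `y = N h'`, `x y = D²` -/
theorem vm_err {μ M₂ M₃ x y D : ℝ} (hμ : 1 ≤ μ) (h2 : μ ≤ M₂) (h3 : μ ≤ M₃) (hx : 1 ≤ x) (hy : 1 ≤ y)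
    (hD : 0 < D) (hxy : x * y = D ^ 2) :
    M₂ ^ (5 / 6 : ℝ) / x * (M₃ ^ (-(1 : ℝ) / 6) * (√(M₃ / y) + 1)) +
      M₂ ^ (-(1 : ℝ) / 6) * (√(M₂ / x) + 1) * (M₃ ^ (5 / 6 : ℝ) / y) +
      M₂ ^ (-(1 : ℝ) / 6) * (√(M₂ / x) + 1) * (M₃ ^ (-(1 : ℝ) / 6) * (√(M₃ / y) + 1)) ≤
    6 * (M₂ * M₃) ^ (5 / 6 : ℝ) * ((√μ * D)⁻¹ + μ⁻¹) := by
  have hμ0 : 0 < μ := by linarith
  have hM₂ : 0 < M₂ := by linarith
  have hM₃ : 0 < M₃ := by linarith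
  have e₂ := vmb_e hμ h2 hx
  have e₃ := vmb_e hμ h3 hy
  have hinv : ∀ z : ℝ, 1 ≤ z → 0 ≤ (√z)⁻¹ ∧ (√z)⁻¹ ≤ 1 ∧ z⁻¹ = (√z)⁻¹ ^ 2 := fun z hz =>
    ⟨by positivity, inv_le_one_of_one_le₀ (Real.one_le_sqrt.2 hz),
      by rw [inv_pow, Real.sq_sqrt (by linarith)]⟩
  obtain ⟨s0, s1, s2⟩ := hinv μ hμ
  obtain ⟨u0, u1, u2⟩ := hinv x hx
  obtain ⟨v0, v1, v2⟩ := hinv y hy
  have eD : (√μ * D)⁻¹ = (√μ)⁻¹ * ((√x)⁻¹ * (√y)⁻¹) := by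
    rw [← mul_inv, ← mul_inv, ← Real.sqrt_mul (by linarith), hxy, Real.sqrt_sq hD.le]
  have hp := vmb_poly s0 s1 u0 u1 v0 v1
  rw [eD, s2, div_eq_mul_inv (M₂ ^ (5 / 6 : ℝ)) x, div_eq_mul_inv (M₃ ^ (5 / 6 : ℝ)) y, u2, v2,
    Real.mul_rpow hM₂.le hM₃.le]
  have n₂ : 0 ≤ M₂ ^ (-(1 : ℝ) / 6) * (√(M₂ / x) + 1) := by positivity
  have n₃ : 0 ≤ M₃ ^ (-(1 : ℝ) / 6) * (√(M₃ / y) + 1) := by positivity
  have p₂ : 0 ≤ M₂ ^ (5 / 6 : ℝ) := by positivity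
  have p₃ : 0 ≤ M₃ ^ (5 / 6 : ℝ) := by positivity
  set σ := (√μ)⁻¹
  set u := (√x)⁻¹
  set v := (√y)⁻¹
  set A := M₂ ^ (5 / 6 : ℝ)
  set B := M₃ ^ (5 / 6 : ℝ)
  set E₂ := M₂ ^ (-(1 : ℝ) / 6) * (√(M₂ / x) + 1)
  set E₃ := M₃ ^ (-(1 : ℝ) / 6) * (√(M₃ / y) + 1)
  calc A * u ^ 2 * E₃ + E₂ * (B * v ^ 2) + E₂ * E₃
      ≤ A * u ^ 2 * (B * (σ * v + σ ^ 2)) + A * (σ * u + σ ^ 2) * (B * v ^ 2) +
        A * (σ * u + σ ^ 2) * (B * (σ * v + σ ^ 2)) := by gcongr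
    _ = A * B * (u ^ 2 * (σ * v + σ ^ 2) + (σ * u + σ ^ 2) * v ^ 2 +
        (σ * u + σ ^ 2) * (σ * v + σ ^ 2)) := by ring
    _ ≤ A * B * (6 * (σ * (u * v) + σ ^ 2)) := mul_le_mul_of_nonneg_left hp (mul_nonneg p₂ p₃)
    _ = _ := by ring

theorem vmb_prod {P₂ P₃ a₂ a₃ : ℂ} {A₂ A₃ e₂ e₃ K₂ K₃ : ℝ} (ha₂ : ‖a₂‖ ≤ K₂ * A₂) (ha₃ : ‖a₃‖ ≤ K₃ * A₃)
    (h₂ : ‖P₂ - a₂‖ ≤ K₂ * e₂) (h₃ : ‖P₃ - a₃‖ ≤ K₃ * e₃) :
    ‖P₂ * P₃ - a₂ * a₃‖ ≤ K₂ * K₃ * (A₂ * e₃ + e₂ * A₃ + e₂ * e₃) := by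
  have e : P₂ * P₃ - a₂ * a₃ = a₂ * (P₃ - a₃) + (P₂ - a₂) * a₃ + (P₂ - a₂) * (P₃ - a₃) := by ring
  have b1 := mul_le_mul ha₂ h₃ (norm_nonneg _) ((norm_nonneg _).trans ha₂)
  have b2 := mul_le_mul h₂ ha₃ (norm_nonneg _) ((norm_nonneg _).trans h₂)
  have b3 := mul_le_mul h₂ h₃ (norm_nonneg _) ((norm_nonneg _).trans h₂)
  rw [e]
  refine (norm_add₃_le.trans ?_)
  rw [norm_mul, norm_mul, norm_mul]
  linarith

theorem vmb_main {C K M x : ℝ} {w : ℂ} (hM : 0 ≤ M) (hx : 0 < x) (hw : ‖w‖ ≤ C / x) (hK : C ≤ K) :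
    ‖((M ^ (5 / 6 : ℝ) : ℝ) : ℂ) * w‖ ≤ K * (M ^ (5 / 6 : ℝ) / x) := by
  have hp : 0 ≤ M ^ (5 / 6 : ℝ) := Real.rpow_nonneg hM _
  rw [norm_mul, Complex.norm_real, Real.norm_of_nonneg hp]
  calc M ^ (5 / 6 : ℝ) * ‖w‖ ≤ M ^ (5 / 6 : ℝ) * (K / x) :=
        mul_le_mul_of_nonneg_left (hw.trans (div_le_div_of_nonneg_right hK hx.le)) hp
    _ = _ := by ring

/-- `PB_eq`, `Pc_asymp`: for `p ∈ anti (d²)` take `w₂` (for `t₂, p.1, m p.2`) and `w₃` (for `t₃, p.2, m`); both products are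
`(M₂ M₃)^(5/6) w₂ w₃` up to `vm_err` (`P₂ P₃ - a₂ a₃ = a₂ (P₃ - a₃) + (P₂ - a₂) a₃ + (P₂ - a₂)(P₃ - a₃)`);
`dn (m p.2) ≤ dn m · dn (d²)` (`dn_mul_le`, `dn_le_of_dvd`), `card_anti`. -/
theorem PB_diff (l : ℤ) {ε : ℝ} (hε : 0 < ε) : ∃ C : ℝ, 0 < C ∧
    ∀ (Y μ R Z M₂ M₃ M₂' M₃' t₂ t₃ : ℝ) (d m : O), Prim d → m ≠ 0 → 1 ≤ μ → μ ≤ M₂ → μ ≤ M₃ → μ ≤ M₂' →
      μ ≤ M₃' → M₂' * M₃' = M₂ * M₃ → M₂ * M₃ ≤ Y → Y ^ ε ≤ R → M₂ * M₃ * R ≤ Z →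
      ‖PB l M₂ t₂ M₃ t₃ R Z (d ^ 2) m - PB l M₂' t₂ M₃' t₃ R Z (d ^ 2) m‖ ≤
        C * dn (d ^ 2) ^ 2 * dn m ^ 2 * ((1 + |t₂|) * (1 + |t₃|)) * (M₂ * M₃) ^ (5 / 6 : ℝ) *
          ((√μ * nm d)⁻¹ + μ⁻¹) := by
  obtain ⟨C, hC, hP⟩ := Pc_asymp l hε
  refine ⟨12 * C ^ 2, by positivity, ?_⟩
  intro Y μ R Z M₂ M₃ M₂' M₃' t₂ t₃ d m hd hm hμ h2 h3 h2' h3' hM hY hR hZ
  have hd2 : Prim (d ^ 2) := hd.pow 2
  have hdm := one_le_dn hm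
  have hdd := one_le_dn hd2.ne_zero
  have hD : 0 < nm d := nm_pos hd.ne_zero
  have hY1 : 1 ≤ Y := le_trans (one_le_mul_of_one_le_of_one_le (hμ.trans h2) (hμ.trans h3)) hY
  have hR0 : 0 ≤ R := (Real.rpow_nonneg (by linarith) _).trans hR
  have hle : ∀ N N' : ℝ, μ ≤ N → μ ≤ N' → N * N' = M₂ * M₃ →
      (N ≤ Y ∧ N * R ≤ Z) ∧ N' ≤ Y ∧ N' * R ≤ Z := by
    intro N N' a a' e
    have b : N ≤ M₂ * M₃ := e ▸ le_mul_of_one_le_right (by linarith) (hμ.trans a')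
    have b' : N' ≤ M₂ * M₃ := e ▸ le_mul_of_one_le_left (by linarith) (hμ.trans a)
    exact ⟨⟨b.trans hY, (mul_le_mul_of_nonneg_right b hR0).trans hZ⟩,
      b'.trans hY, (mul_le_mul_of_nonneg_right b' hR0).trans hZ⟩
  have ht₂ : 1 ≤ 1 + |t₂| := le_add_of_nonneg_right (abs_nonneg _)
  have ht₃ : 1 ≤ 1 + |t₃| := le_add_of_nonneg_right (abs_nonneg _)
  set K₂ := C * (dn m * dn (d ^ 2)) * (1 + |t₂|) with hK₂
  set K₃ := C * dn m * (1 + |t₃|) with hK₃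
  set S := 6 * (M₂ * M₃) ^ (5 / 6 : ℝ) * ((√μ * nm d)⁻¹ + μ⁻¹) with hS
  have hCK₂ : C ≤ K₂ := by
    rw [hK₂, mul_assoc]
    exact le_mul_of_one_le_right hC.le
      (one_le_mul_of_one_le_of_one_le (one_le_mul_of_one_le_of_one_le hdm hdd) ht₂)
  have hCK₃ : C ≤ K₃ := by
    rw [hK₃, mul_assoc]
    exact le_mul_of_one_le_right hC.le (one_le_mul_of_one_le_of_one_le hdm ht₃)
  have hterm : ∀ p ∈ anti (d ^ 2),
      ‖Pc l M₂ t₂ R Z p.1 (m * p.2) * Pc l M₃ t₃ R Z p.2 m -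
        Pc l M₂' t₂ R Z p.1 (m * p.2) * Pc l M₃' t₃ R Z p.2 m‖ ≤ 2 * (K₂ * K₃ * S) := by
    intro p hp
    obtain ⟨p1, p2, p3⟩ := mem_anti.1 hp
    obtain ⟨w₂, hw₂, H₂⟩ := hP t₂ p.1 (m * p.2) p1 (mul_ne_zero hm p2.ne_zero)
    obtain ⟨w₃, hw₃, H₃⟩ := hP t₃ p.2 m p2 hm
    have hx := one_le_nm p1.ne_zero
    have hy := one_le_nm p2.ne_zero
    have hxy : nm p.1 * nm p.2 = nm d ^ 2 := by rw [← nm_mul, p3, nm_pow]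
    have hdn : dn (m * p.2) ≤ dn m * dn (d ^ 2) :=
      (dn_mul_le _ _).trans (mul_le_mul_of_nonneg_left
        (dn_le_of_dvd hd2.ne_zero ⟨p.1, by rw [← p3, mul_comm]⟩) (dn_nonneg m))
    have key : ∀ N N' : ℝ, μ ≤ N → μ ≤ N' → N * N' = M₂ * M₃ →
        ‖Pc l N t₂ R Z p.1 (m * p.2) * Pc l N' t₃ R Z p.2 m -
          (((M₂ * M₃) ^ (5 / 6 : ℝ) : ℝ) : ℂ) * (w₂ * w₃)‖ ≤ K₂ * K₃ * S := by
      intro N N' a a' e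
      obtain ⟨⟨b1, b2⟩, b3, b4⟩ := hle N N' a a' e
      have hN : 0 ≤ N := by linarith
      have hN' : 0 ≤ N' := by linarith
      have c₂ : ‖Pc l N t₂ R Z p.1 (m * p.2) - ((N ^ (5 / 6 : ℝ) : ℝ) : ℂ) * w₂‖ ≤
          K₂ * (N ^ (-(1 : ℝ) / 6) * (√(N / nm p.1) + 1)) := by
        refine (H₂ Y N R Z (hμ.trans a) b1 hR b2).trans ?_
        rw [hK₂]
        gcongr
      have c := vmb_prod (vmb_main hN (by linarith) hw₂ hCK₂) (vmb_main hN' (by linarith) hw₃ hCK₃)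
        c₂ (H₃ Y N' R Z (hμ.trans a') b3 hR b4)
      have e' : ((N ^ (5 / 6 : ℝ) : ℝ) : ℂ) * w₂ * (((N' ^ (5 / 6 : ℝ) : ℝ) : ℂ) * w₃) =
          (((M₂ * M₃) ^ (5 / 6 : ℝ) : ℝ) : ℂ) * (w₂ * w₃) := by
        rw [← e, Real.mul_rpow hN hN', Complex.ofReal_mul]
        ring
      rw [e'] at c
      refine c.trans (mul_le_mul_of_nonneg_left ?_ (mul_nonneg (hC.le.trans hCK₂) (hC.le.trans hCK₃)))
      rw [hS, ← e]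
      exact vm_err hμ a a' hx hy hD hxy
    have k1 := key M₂ M₃ h2 h3 rfl
    have k2 := key M₂' M₃' h2' h3' hM
    have := norm_sub_le_norm_sub_add_norm_sub
      (Pc l M₂ t₂ R Z p.1 (m * p.2) * Pc l M₃ t₃ R Z p.2 m)
      ((((M₂ * M₃) ^ (5 / 6 : ℝ) : ℝ) : ℂ) * (w₂ * w₃))
      (Pc l M₂' t₂ R Z p.1 (m * p.2) * Pc l M₃' t₃ R Z p.2 m)
    rw [norm_sub_rev ((((M₂ * M₃) ^ (5 / 6 : ℝ) : ℝ) : ℂ) * (w₂ * w₃))] at this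
    linarith
  obtain ⟨⟨-, z2⟩, -, z3⟩ := hle M₂ M₃ h2 h3 rfl
  obtain ⟨⟨-, z2'⟩, -, z3'⟩ := hle M₂' M₃' h2' h3' hM
  have hfin : 12 * C ^ 2 * dn (d ^ 2) ^ 2 * dn m ^ 2 * ((1 + |t₂|) * (1 + |t₃|)) *
      (M₂ * M₃) ^ (5 / 6 : ℝ) * ((√μ * nm d)⁻¹ + μ⁻¹) = dn (d ^ 2) * (2 * (K₂ * K₃ * S)) := by
    rw [hK₂, hK₃, hS]
    ring
  rw [PB_eq l t₂ t₃ m hd2 z2 z3, PB_eq l t₂ t₃ m hd2 z2' z3', hfin]
  split_ifs
  · rw [← Finset.sum_sub_distrib, ← card_anti hd2, ← nsmul_eq_mul]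
    exact (norm_sum_le _ _).trans (Finset.sum_le_card_nsmul _ _ _ hterm)
  · have hμ0 : 0 < μ := by linarith
    have hMM : 0 < M₂ * M₃ := mul_pos (by linarith) (by linarith)
    have hS0 : 0 ≤ S := by rw [hS]; positivity
    rw [sub_zero, norm_zero]
    exact mul_nonneg (dn_nonneg _) (mul_nonneg zero_le_two
      (mul_nonneg (mul_nonneg (hC.le.trans hCK₂) (hC.le.trans hCK₃)) hS0))

theorem vmc_num {P R : ℝ} (hP : 0 < P) (hR : 1 ≤ R) :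
    P * R ^ 2 * (P / R ^ 2) ^ (-(1 : ℝ) / 6) ≤ R ^ 3 * P ^ (5 / 6 : ℝ) := by
  have hR0 : 0 < R := by linarith
  have a1 : (R ^ 2) ^ (-(1 : ℝ) / 6) = R ^ (-(1 : ℝ) / 3) := by
    rw [← Real.rpow_natCast, ← Real.rpow_mul hR0.le]; norm_num
  have a2 : R⁻¹ ≤ R ^ (-(1 : ℝ) / 3) := by
    rw [← Real.rpow_neg_one]; exact Real.rpow_le_rpow_of_exponent_le hR (by norm_num)
  have a3 : P ^ (5 / 6 : ℝ) = P * P ^ (-(1 : ℝ) / 6) := by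
    rw [← Real.rpow_one_add' hP.le (by norm_num)]; norm_num
  rw [Real.div_rpow hP.le (by positivity), a1, a3]
  calc _ ≤ P * R ^ 2 * (P ^ (-(1 : ℝ) / 6) / R⁻¹) := by gcongr
    _ = _ := by field_simp

/-- Trivial bound.  By `sum_cv` (`X = M₂ M₃ R²`, `F b = if g ∣ b ∧ IsCoprime b m then n6 b else 0`, `n6_mul`) this is a sum over
`b` of `cv plc plc b · F b`; `norm_cv_plc_le`, `dn_succ_pow_le 0`, `cv_plc_ne_zero`, `n6_le`, `card_dvd_le`;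
`(M₂ M₃ / R²)^(-1/6) · M₂ M₃ R² = (M₂ M₃)^(5/6) R^(7/3)`. -/
theorem PB_triv {ε : ℝ} (hε : 0 < ε) : ∃ C : ℝ, 0 < C ∧
    ∀ (l : ℤ) (Y R Z M₂ M₃ t₂ t₃ : ℝ) (g m : O), g ≠ 0 → 0 < M₂ → 0 < M₃ → 1 ≤ R → M₂ * M₃ * R ^ 2 ≤ Z →
      M₂ * M₃ * R ^ 2 ≤ Y →
      ‖PB l M₂ t₂ M₃ t₃ R Z g m‖ ≤ C * Y ^ ε * R ^ 3 * (M₂ * M₃) ^ (5 / 6 : ℝ) / nm g := by
  classical
  obtain ⟨C, hC, h⟩ := dn_succ_pow_le 0 hε
  refine ⟨11 * C, by positivity, fun l Y R Z M₂ M₃ t₂ t₃ g m hg h2 h3 hR hZ hY => ?_⟩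
  have hR0 : 0 < R := by linarith
  have hP : 0 < M₂ * M₃ := by positivity
  have hY0 : 0 < Y := lt_of_lt_of_le (by positivity) hY
  have e := sum_cv (plc l M₂ t₂ R) (plc l M₃ t₃ R)
    (fun b => if g ∣ b ∧ IsCoprime b m then (n6 b : ℂ) else 0) hZ fun n n' _ _ a1 a2 => by
      have b1 := (plc_ne_zero a1).2
      have b2 := (plc_ne_zero a2).2
      have := nm_nonneg n'
      calc nm n * nm n' ≤ M₂ * R * (M₃ * R) := by gcongr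
        _ = _ := by ring
  have e1 : PB l M₂ t₂ M₃ t₃ R Z g m = ∑ b ∈ pball (M₂ * M₃ * R ^ 2),
      cv (plc l M₂ t₂ R) (plc l M₃ t₃ R) b * if g ∣ b ∧ IsCoprime b m then (n6 b : ℂ) else 0 := by
    rw [e, PB]
    refine Finset.sum_congr rfl fun n _ => Finset.sum_congr rfl fun n' _ => ?_
    split_ifs
    · rw [n6_mul]; push_cast; ring
    · rw [mul_zero]
  obtain ⟨D, hD⟩ : ∃ D, D = C * Y ^ ε * (M₂ * M₃ / R ^ 2) ^ (-(1 : ℝ) / 6) := ⟨_, rfl⟩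
  have hD0 : 0 ≤ D := by rw [hD]; positivity
  have e2 : ‖PB l M₂ t₂ M₃ t₃ R Z g m‖ ≤ ∑ b ∈ pball (M₂ * M₃ * R ^ 2), if g ∣ b then D else 0 := by
    rw [e1]
    refine (norm_sum_le _ _).trans (Finset.sum_le_sum fun b _ => ?_)
    by_cases h0 : cv (plc l M₂ t₂ R) (plc l M₃ t₃ R) b = 0
    · rw [h0, zero_mul, norm_zero]; split_ifs; exacts [hD0, le_rfl]
    obtain ⟨b1, b2⟩ := cv_plc_ne_zero h2 h3 hR0 h0
    by_cases hb : g ∣ b ∧ IsCoprime b m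
    · rw [if_pos hb, if_pos hb.1, norm_mul, Complex.norm_real, Real.norm_of_nonneg (n6_nonneg b), hD]
      have b3 : dn b ≤ C * Y ^ ε := by
        have := h b
        rw [zero_add, pow_one] at this
        have b4 := nm_nonneg b
        exact this.trans (by gcongr; exact b2.trans hY)
      exact mul_le_mul ((norm_cv_plc_le ..).trans b3) (n6_le (by positivity) b1.le) (n6_nonneg b)
        (by positivity)
    · rw [if_neg hb, mul_zero, norm_zero]; split_ifs; exacts [hD0, le_rfl]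
  rw [← Finset.sum_filter, Finset.sum_const, nsmul_eq_mul] at e2
  have e3 := card_dvd_le (X := M₂ * M₃ * R ^ 2) (by positivity) hg
    (A := (pball (M₂ * M₃ * R ^ 2)).filter fun b => g ∣ b) fun n hn => by
      obtain ⟨a1, a2⟩ := Finset.mem_filter.1 hn
      exact ⟨(mem_pball.1 a1).2.ne_zero, a2, (mem_pball.1 a1).1⟩
  have e4 := vmc_num hP hR
  have hg0 := nm_pos hg
  calc _ ≤ 11 * (M₂ * M₃ * R ^ 2) / nm g * D := e2.trans (by gcongr)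
    _ = 11 * C * Y ^ ε * (M₂ * M₃ * R ^ 2 * (M₂ * M₃ / R ^ 2) ^ (-(1 : ℝ) / 6)) / nm g := by
        rw [hD]; ring
    _ ≤ 11 * C * Y ^ ε * (R ^ 3 * (M₂ * M₃) ^ (5 / 6 : ℝ)) / nm g := by gcongr
    _ = _ := by ring

/-- `sum_mu_sq`; for a non-zero term `pdiv (n₂ n₃) ⊆ pball Z` and `d² ∣ n₂ n₃` forces `d ∈ pdiv (n₂ n₃)` -/
theorem VS_eq (l : ℤ) {M₂ M₃ R Z : ℝ} (t₂ t₃ : ℝ) (m : O) (h2 : 0 < M₂) (h3 : 0 < M₃) (hR : 0 < R)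
    (hZ : M₂ * M₃ * R ^ 2 ≤ Z) :
    VS l M₂ t₂ M₃ t₃ R Z m = ∑ d ∈ pball Z, mu d * PB l M₂ t₂ M₃ t₃ R Z (d ^ 2) m := by
  classical
  unfold VS PB
  simp only [Finset.mul_sum]
  symm
  rw [Finset.sum_comm]
  refine Finset.sum_congr rfl fun n₂ hn₂ => ?_
  rw [Finset.sum_comm]
  refine Finset.sum_congr rfl fun n₃ hn₃ => ?_
  by_cases h0 : plc l M₂ t₂ R n₂ * (n6 n₂ : ℂ) * (plc l M₃ t₃ R n₃ * (n6 n₃ : ℂ)) = 0
  · simp [h0]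
  have hp := (mem_pball.1 hn₂).2.mul (mem_pball.1 hn₃).2
  have hn : nm (n₂ * n₃) ≤ Z := by
    have a2 := (plc_ne_zero (left_ne_zero_of_mul (left_ne_zero_of_mul h0))).2
    have a3 := (plc_ne_zero (left_ne_zero_of_mul (right_ne_zero_of_mul h0))).2
    rw [nm_mul]
    calc _ ≤ M₂ * R * (M₃ * R) := mul_le_mul a2 a3 (nm_nonneg _) (by positivity)
      _ = M₂ * M₃ * R ^ 2 := by ring
      _ ≤ Z := hZ
  generalize plc l M₂ t₂ R n₂ * (n6 n₂ : ℂ) * (plc l M₃ t₃ R n₃ * (n6 n₃ : ℂ)) = F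
  generalize n₂ * n₃ = n at hp hn
  by_cases hc : IsCoprime n m
  · simp only [hc, and_true]
    have e := sum_mu_sq hp
    rw [Finset.sum_subset (s₂ := pball Z) (fun d hd => by
      obtain ⟨k1, k2⟩ := pra_of_mem_pdiv hd
      exact mem_pball.2 ⟨(nm_le_of_dvd k2 hp.ne_zero).trans hn, k1⟩) (fun d hd hd' => if_neg fun h =>
        hd' ((mem_pdiv hp.ne_zero).2 ⟨(mem_pball.1 hd).2, (dvd_pow_self d two_ne_zero).trans h⟩))] at e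
    have := congrArg (· * F) e
    simp only [Finset.sum_mul, ite_mul, zero_mul, one_mul] at this
    simp only [mul_ite, mul_zero]
    convert this
  · simp [hc]

/-- `VS_eq` twice; `N d ≤ √μ`: `PB_diff`, `dn (d²) ^ 2 ≤ C μ^(ε'/2)` (`dn_succ_pow_le 1`), `sum_inv_nm_le`, `card_le_of_nm_le`,
`one_add_log_rpow_le`; `N d > √μ`: `PB_triv` twice, `sum_nm_rpow_tail` (`σ = 2`).  `μ ≤ Y`, `1 ≤ Y^ε ≤ R`, `1 ≤ dn m`. -/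
theorem VS_diff (l : ℤ) {ε ε' : ℝ} (hε : 0 < ε) (hε' : 0 < ε') : ∃ C : ℝ, 0 < C ∧
    ∀ (Y μ R Z M₂ M₃ M₂' M₃' t₂ t₃ : ℝ) (m : O), m ≠ 0 → 1 ≤ μ → μ ≤ M₂ → μ ≤ M₃ → μ ≤ M₂' →
      μ ≤ M₃' → M₂' * M₃' = M₂ * M₃ → 1 ≤ Y → Y ^ ε ≤ R → M₂ * M₃ * R ^ 2 ≤ Y → M₂ * M₃ * R ^ 2 ≤ Z →
      ‖VS l M₂ t₂ M₃ t₃ R Z m - VS l M₂' t₂ M₃' t₃ R Z m‖ ≤
        C * Y ^ ε' * R ^ 3 * dn m ^ 2 * ((1 + |t₂|) * (1 + |t₃|)) * (M₂ * M₃) ^ (5 / 6 : ℝ) / √μ := by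
  classical
  obtain ⟨C₁, hC₁, h₁⟩ := PB_diff l hε
  obtain ⟨C₂, hC₂, h₂⟩ := dn_succ_pow_le 1 (half_pos hε')
  obtain ⟨C₃, hC₃, h₃⟩ := one_add_log_rpow_le 1 (half_pos hε')
  obtain ⟨C₄, hC₄, h₄⟩ := PB_triv hε'
  obtain ⟨C₅, hC₅, h₅⟩ := sum_nm_rpow_tail (σ := 2) (by norm_num)
  refine ⟨88 * C₁ * C₂ * C₃ + 2 * C₄ * C₅, by positivity,
    fun Y μ R Z M₂ M₃ M₂' M₃' t₂ t₃ m hm hμ h2 h3 h2' h3' hMM hY hR hPY hPZ => ?_⟩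
  have hR1 : 1 ≤ R := (Real.one_le_rpow hY hε.le).trans hR
  have hR0 : 0 < R := by linarith
  have hY0 : 0 < Y := by linarith
  have p2 : 0 < M₂ := by linarith
  have p3 : 0 < M₃ := by linarith
  have p2' : 0 < M₂' := by linarith
  have p3' : 0 < M₃' := by linarith
  have hP : 0 < M₂ * M₃ := by positivity
  have hs : 1 ≤ √μ := Real.one_le_sqrt.2 hμ
  have hss : √μ * √μ = μ := Real.mul_self_sqrt (by linarith)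
  have q1 : M₂ * M₃ ≤ Y := (le_mul_of_one_le_right hP.le (one_le_pow₀ hR1)).trans hPY
  have q2 : M₂ * M₃ * R ≤ Z :=
    (mul_le_mul_of_nonneg_left (le_self_pow₀ hR1 two_ne_zero) hP.le).trans hPZ
  have q3 : μ ≤ Y := le_trans (by nlinarith) q1
  obtain ⟨W, hW⟩ : ∃ W, W = dn m ^ 2 * ((1 + |t₂|) * (1 + |t₃|)) := ⟨_, rfl⟩
  have hW1 : 1 ≤ W := by
    rw [hW]
    exact one_le_mul_of_one_le_of_one_le (one_le_pow₀ (one_le_dn hm))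
      (one_le_mul_of_one_le_of_one_le (by linarith [abs_nonneg t₂]) (by linarith [abs_nonneg t₃]))
  obtain ⟨E, hE⟩ : ∃ E, E = (M₂ * M₃) ^ (5 / 6 : ℝ) := ⟨_, rfl⟩
  have hE0 : 0 < E := by rw [hE]; positivity
  obtain ⟨Δ, hΔ⟩ : ∃ Δ : O → ℝ, ∀ d, Δ d =
    ‖PB l M₂ t₂ M₃ t₃ R Z (d ^ 2) m - PB l M₂' t₂ M₃' t₃ R Z (d ^ 2) m‖ := ⟨_, fun _ => rfl⟩
  have e1 : ‖VS l M₂ t₂ M₃ t₃ R Z m - VS l M₂' t₂ M₃' t₃ R Z m‖ ≤ ∑ d ∈ pball Z, Δ d := by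
    rw [VS_eq l t₂ t₃ m p2 p3 hR0 hPZ, VS_eq l t₂ t₃ m p2' p3' hR0 (hMM ▸ hPZ), ← Finset.sum_sub_distrib]
    refine (norm_sum_le _ _).trans (Finset.sum_le_sum fun d _ => ?_)
    rw [← mul_sub, norm_mul, hΔ]
    exact mul_le_of_le_one_left (norm_nonneg _) (norm_mu_le d)
  have e2 : ∑ d ∈ (pball Z).filter fun d => nm d ≤ √μ, Δ d ≤
      88 * C₁ * C₂ * C₃ * (Y ^ ε' * W * E / √μ) := by
    have a1 := sum_inv_nm_le hY (A := (pball Z).filter fun d => nm d ≤ √μ) fun d hd =>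
      (Finset.mem_filter.1 hd).2.trans (le_trans (by nlinarith) q3)
    have a2 := h₃ Y hY
    rw [Real.rpow_one] at a2
    calc _ ≤ ∑ d ∈ (pball Z).filter fun d => nm d ≤ √μ,
          2 * C₁ * C₂ * (Y ^ (ε' / 2) * W * E / √μ) * (nm d)⁻¹ := by
          refine Finset.sum_le_sum fun d hd => ?_
          obtain ⟨b1, b2⟩ := Finset.mem_filter.1 hd
          have b3 := (mem_pball.1 b1).2
          have b4 := nm_pos b3.ne_zero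
          have b5 : dn (d ^ 2) ^ 2 ≤ C₂ * Y ^ (ε' / 2) := by
            refine (h₂ (d ^ 2)).trans ?_
            have := nm_nonneg (d ^ 2)
            gcongr
            rw [nm_pow]
            nlinarith
          have b6 : μ⁻¹ ≤ (√μ * nm d)⁻¹ := inv_anti₀ (by positivity) (by nlinarith)
          rw [hΔ]
          refine (h₁ Y μ R Z M₂ M₃ M₂' M₃' t₂ t₃ d m b3 hm hμ h2 h3 h2' h3' hMM q1 hR q2).trans ?_
          rw [mul_assoc (C₁ * dn (d ^ 2) ^ 2), ← hW, ← hE]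
          calc _ ≤ C₁ * (C₂ * Y ^ (ε' / 2)) * W * E * ((√μ * nm d)⁻¹ + (√μ * nm d)⁻¹) := by gcongr
            _ = _ := by field_simp; ring
      _ ≤ 2 * C₁ * C₂ * (Y ^ (ε' / 2) * W * E / √μ) * (44 * (C₃ * Y ^ (ε' / 2))) := by
          rw [← Finset.mul_sum]
          gcongr
          exact a1.trans (by gcongr)
      _ = 88 * C₁ * C₂ * C₃ * (Y ^ (ε' / 2) * Y ^ (ε' / 2) * W * E / √μ) := by ring
      _ = _ := by rw [← Real.rpow_add hY0, add_halves]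
  have e3 : ∑ d ∈ (pball Z).filter fun d => ¬ nm d ≤ √μ, Δ d ≤
      2 * C₄ * C₅ * (Y ^ ε' * R ^ 3 * E / √μ) := by
    have a1 := h₅ √μ ((pball Z).filter fun d => ¬ nm d ≤ √μ) (by linarith) fun d hd =>
      (not_le.1 (Finset.mem_filter.1 hd).2).le
    rw [show (1 - 2 : ℝ) = -1 by norm_num, Real.rpow_neg_one] at a1
    calc _ ≤ ∑ d ∈ (pball Z).filter fun d => ¬ nm d ≤ √μ,
          2 * C₄ * (Y ^ ε' * R ^ 3 * E) * nm d ^ (-2 : ℝ) := by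
          refine Finset.sum_le_sum fun d hd => ?_
          have b3 := (mem_pball.1 (Finset.mem_filter.1 hd).1).2.ne_zero
          have b4 := h₄ l Y R Z M₂ M₃ t₂ t₃ (d ^ 2) m (pow_ne_zero 2 b3) p2 p3 hR1 hPZ hPY
          have b5 := h₄ l Y R Z M₂' M₃' t₂ t₃ (d ^ 2) m (pow_ne_zero 2 b3) p2' p3' hR1 (hMM ▸ hPZ)
            (hMM ▸ hPY)
          rw [hMM] at b5
          rw [← hE, nm_pow] at b4 b5
          rw [hΔ, Real.rpow_neg (nm_nonneg d), Real.rpow_two]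
          exact (norm_sub_le_of_le b4 b5).trans_eq (by ring)
      _ ≤ 2 * C₄ * (Y ^ ε' * R ^ 3 * E) * (C₅ * (√μ)⁻¹) := by
          rw [← Finset.mul_sum]
          gcongr
      _ = _ := by ring
  rw [← Finset.sum_filter_add_sum_filter_not _ fun d => nm d ≤ √μ] at e1
  have e4 : Y ^ ε' * W * E / √μ ≤ Y ^ ε' * R ^ 3 * W * E / √μ := by
    gcongr
    exact le_mul_of_one_le_right (by positivity) (one_le_pow₀ hR1)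
  have e5 : Y ^ ε' * R ^ 3 * E / √μ ≤ Y ^ ε' * R ^ 3 * W * E / √μ := by
    have : Y ^ ε' * R ^ 3 ≤ Y ^ ε' * R ^ 3 * W := le_mul_of_one_le_right (by positivity) hW1
    exact div_le_div_of_nonneg_right (mul_le_mul_of_nonneg_right this hE0.le) (by positivity)
  calc _ ≤ 88 * C₁ * C₂ * C₃ * (Y ^ ε' * R ^ 3 * W * E / √μ) +
        2 * C₄ * C₅ * (Y ^ ε' * R ^ 3 * W * E / √μ) :=
        e1.trans (add_le_add (e2.trans (by gcongr)) (e3.trans (by gcongr)))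
    _ = _ := by rw [hW, hE]; ring

end Crest.Agent.R12.QB
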